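import Mathlib

open Filter Topology
open scoped NNReal

namespace Vale.Agent.P124.R2

section Avg

variable {V W : Type*} [NormedAddCommGroup V] [NormedSpace ℝ V]
  [NormedAddCommGroup W] [NormedSpace ℝ W]

set_option linter.unusedSectionVars false

/-- Average of `F` over the `N` translates `x, x + v, ..., x + (N - 1) v`. -/
noncomputable def avg (N : ℕ) (v : V) (F : V → W) : V → W :=
  fun x => (N : ℝ)⁻¹ • ∑ a ∈ Finset.range N, F (x + a • v)

/-- Iterated averages along the vectors of a list. -/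
noncomputable def avgs (N : ℕ) (l : List V) (F : V → W) : V → W :=
  l.foldr (fun v G => avg N v G) F

@[simp] lemma avgs_nil (N : ℕ) (F : V → W) : avgs N [] F = F := rfl

@[simp] lemma avgs_cons (N : ℕ) (v : V) (l : List V) (F : V → W) :
    avgs N (v :: l) F = avg N v (avgs N l F) := rfl

lemma avg_comm (N N' : ℕ) (v v' : V) (F : V → W) :
    avg N v (avg N' v' F) = avg N' v' (avg N v F) := by
  funext x
  simp only [avg, Finset.smul_sum]
  rw [Finset.sum_comm]
  refine Finset.sum_congr rfl fun a _ => Finset.sum_congr rfl fun b _ => ?_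
  rw [smul_comm]
  congr 3
  abel

lemma avgs_avg_comm (N N' : ℕ) (l : List V) (v' : V) (F : V → W) :
    avgs N l (avg N' v' F) = avg N' v' (avgs N l F) := by
  induction l with
  | nil => rfl
  | cons v l ih => rw [avgs_cons, avgs_cons, ih, avg_comm]

/-- Closure of a property under averaging. -/
lemma avgs_induct {P : (V → W) → Prop} {N : ℕ} (hP : ∀ v F, P F → P (avg N v F)) {l : List V}
    {F : V → W} (hF : P F) : P (avgs N l F) := by
  induction l with
  | nil => exact hF
  | cons v l ih => exact hP v _ ih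

/-- If `v ∈ l` then the average along `v` can be pulled out. -/
lemma exists_avgs_eq {P : (V → W) → Prop} {N : ℕ} (hP : ∀ v F, P F → P (avg N v F)) {l : List V}
    {v : V} (hv : v ∈ l) {F : V → W} (hF : P F) : ∃ H, P H ∧ avgs N l F = avg N v H := by
  induction l with
  | nil => simp at hv
  | cons w l ih =>
    rcases List.mem_cons.1 hv with rfl | h
    · exact ⟨avgs N l F, avgs_induct hP hF, rfl⟩
    · obtain ⟨H, hH, e⟩ := ih h
      exact ⟨avg N w H, hP w H hH, by rw [avgs_cons, e, avg_comm]⟩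

lemma avg_step (N : ℕ) (v : V) (H : V → W) (x : V) :
    avg N v H (x + v) - avg N v H x = (N : ℝ)⁻¹ • (H (x + N • v) - H x) := by
  simp only [avg, ← smul_sub, ← Finset.sum_sub_distrib]
  congr 1
  have := Finset.sum_range_sub (fun a : ℕ => H (x + a • v)) N
  simp only [zero_smul, add_zero] at this
  rw [← this]
  refine Finset.sum_congr rfl fun a _ => ?_
  congr 2
  rw [succ_nsmul]
  abel

lemma avg_lipschitz {N : ℕ} {L : ℝ≥0} (v : V) {F : V → W}
    (hF : LipschitzWith L F) : LipschitzWith L (avg N v F) := by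
  refine LipschitzWith.of_dist_le_mul fun x y => ?_
  rcases Nat.eq_zero_or_pos N with rfl | hN
  · simp [avg]; positivity
  have hN' : (0 : ℝ) < N := by exact_mod_cast hN
  simp only [avg, dist_eq_norm, ← smul_sub, ← Finset.sum_sub_distrib]
  rw [norm_smul, norm_inv, Real.norm_of_nonneg hN'.le]
  rw [inv_mul_le_iff₀ hN']
  calc ‖∑ a ∈ Finset.range N, (F (x + a • v) - F (y + a • v))‖
      ≤ ∑ a ∈ Finset.range N, ‖F (x + a • v) - F (y + a • v)‖ := norm_sum_le _ _
    _ ≤ ∑ a ∈ Finset.range N, (L : ℝ) * ‖x - y‖ := by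
        refine Finset.sum_le_sum fun a _ => ?_
        have := hF.dist_le_mul (x + a • v) (y + a • v)
        rw [dist_eq_norm, dist_eq_norm] at this
        simpa using this
    _ = N * ((L : ℝ) * ‖x - y‖) := by simp

lemma avgs_lipschitz {N : ℕ} {L : ℝ≥0} (l : List V) {F : V → W}
    (hF : LipschitzWith L F) : LipschitzWith L (avgs N l F) :=
  avgs_induct (P := fun F => LipschitzWith L F) (fun v _ h => avg_lipschitz v h) hF

/-- The total displacement used by `avgs N l`. -/
noncomputable def disp (N : ℕ) (l : List V) : ℝ := (l.map fun v => N * ‖v‖).sum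

lemma disp_cons (N : ℕ) (v : V) (l : List V) : disp N (v :: l) = N * ‖v‖ + disp N l := by
  simp [disp]

lemma disp_nonneg (N : ℕ) (l : List V) : 0 ≤ disp N l := by
  apply List.sum_nonneg
  intro x hx
  obtain ⟨v, _, rfl⟩ := List.mem_map.1 hx
  positivity

lemma avg_lipschitzOn {N : ℕ} {L : ℝ≥0} (v : V) {F : V → W} {r : ℝ}
    (hF : LipschitzOnWith L F (Metric.closedBall 0 (r + N * ‖v‖))) :
    LipschitzOnWith L (avg N v F) (Metric.closedBall 0 r) := by
  refine LipschitzOnWith.of_dist_le_mul fun x hx y hy => ?_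
  rcases Nat.eq_zero_or_pos N with rfl | hN
  · simp [avg]; positivity
  have hN' : (0 : ℝ) < N := by exact_mod_cast hN
  simp only [avg, dist_eq_norm, ← smul_sub, ← Finset.sum_sub_distrib]
  rw [norm_smul, norm_inv, Real.norm_of_nonneg hN'.le]
  rw [inv_mul_le_iff₀ hN']
  have key : ∀ z ∈ Metric.closedBall (0 : V) r, ∀ a ∈ Finset.range N,
      z + a • v ∈ Metric.closedBall (0 : V) (r + N * ‖v‖) := by
    intro z hz a ha
    rw [mem_closedBall_zero_iff] at hz ⊢
    have h1 : ‖a • v‖ ≤ N * ‖v‖ := by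
      have h2 : ‖a • v‖ ≤ a * ‖v‖ := norm_nsmul_le
      have h3 : (a : ℝ) ≤ N := by exact_mod_cast (Finset.mem_range.1 ha).le
      exact h2.trans (by gcongr)
    exact (norm_add_le _ _).trans (add_le_add hz h1)
  calc ‖∑ a ∈ Finset.range N, (F (x + a • v) - F (y + a • v))‖
      ≤ ∑ a ∈ Finset.range N, ‖F (x + a • v) - F (y + a • v)‖ := norm_sum_le _ _
    _ ≤ ∑ a ∈ Finset.range N, (L : ℝ) * ‖x - y‖ := by
        refine Finset.sum_le_sum fun a ha => ?_
        have := hF.dist_le_mul _ (key x hx a ha) _ (key y hy a ha)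
        rw [dist_eq_norm, dist_eq_norm] at this
        simpa using this
    _ = N * ((L : ℝ) * ‖x - y‖) := by simp

lemma avgs_lipschitzOn {N : ℕ} {L : ℝ≥0} (l : List V) {F : V → W} {r : ℝ}
    (hF : LipschitzOnWith L F (Metric.closedBall 0 (r + disp N l))) :
    LipschitzOnWith L (avgs N l F) (Metric.closedBall 0 r) := by
  induction l generalizing r with
  | nil => simpa [disp] using hF
  | cons v l ih =>
    rw [avgs_cons]
    apply avg_lipschitzOn
    apply ih
    rw [disp_cons] at hF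
    rwa [add_assoc]

lemma avg_mem {N : ℕ} (M : Submodule ℝ W) (v : V) {F : V → W} (hF : ∀ x, F x ∈ M) :
    ∀ x, avg N v F x ∈ M := fun _ =>
  M.smul_mem _ (M.sum_mem fun _ _ => hF _)

lemma avgs_mem {N : ℕ} (M : Submodule ℝ W) (l : List V) {F : V → W} (hF : ∀ x, F x ∈ M) :
    ∀ x, avgs N l F x ∈ M :=
  avgs_induct (P := fun F => ∀ x, F x ∈ M) (fun v _ h => avg_mem M v h) hF

/-- Averages of functions close to a constant. -/
lemma avg_near {N : ℕ} (hN : 0 < N) (v : V) {Q : V → W} {c : W} {κ ρ : ℝ} (hκ : 0 ≤ κ)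
    (hQ : ∀ x, ‖Q x - c‖ ≤ κ * (‖x‖ + ρ)) (x : V) :
    ‖avg N v Q x - c‖ ≤ κ * (‖x‖ + (N * ‖v‖ + ρ)) := by
  have hN' : (0 : ℝ) < N := by exact_mod_cast hN
  have e : avg N v Q x - c = (N : ℝ)⁻¹ • ∑ a ∈ Finset.range N, (Q (x + a • v) - c) := by
    simp only [avg, Finset.sum_sub_distrib, smul_sub, Finset.sum_const, Finset.card_range]
    congr 1
    rw [← Nat.cast_smul_eq_nsmul ℝ, smul_smul, inv_mul_cancel₀ hN'.ne', one_smul]
  rw [e, norm_smul, norm_inv, Real.norm_of_nonneg hN'.le, inv_mul_le_iff₀ hN']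
  calc ‖∑ a ∈ Finset.range N, (Q (x + a • v) - c)‖
      ≤ ∑ a ∈ Finset.range N, ‖Q (x + a • v) - c‖ := norm_sum_le _ _
    _ ≤ ∑ a ∈ Finset.range N, κ * (‖x‖ + (N * ‖v‖ + ρ)) := by
        refine Finset.sum_le_sum fun a ha => (hQ _).trans ?_
        have h1 : ‖x + a • v‖ ≤ ‖x‖ + N * ‖v‖ := by
          have h2 : ‖a • v‖ ≤ a * ‖v‖ := norm_nsmul_le
          have h3 : (a : ℝ) ≤ N := by exact_mod_cast (Finset.mem_range.1 ha).le
          have h4 : (a : ℝ) * ‖v‖ ≤ N * ‖v‖ := by gcongr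
          linarith [norm_add_le x (a • v)]
        apply mul_le_mul_of_nonneg_left _ hκ
        linarith
    _ = N * (κ * (‖x‖ + (N * ‖v‖ + ρ))) := by simp

lemma avgs_near {N : ℕ} (hN : 0 < N) (l : List V) {Q : V → W} {c : W} {κ : ℝ} (hκ : 0 ≤ κ)
    (hQ : ∀ x, ‖Q x - c‖ ≤ κ * ‖x‖) (x : V) :
    ‖avgs N l Q x - c‖ ≤ κ * (‖x‖ + disp N l) := by
  induction l generalizing x with
  | nil => simpa [disp] using hQ x
  | cons v l ih =>
    rw [avgs_cons, disp_cons]
    exact avg_near hN v hκ ih x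

lemma avg_diff (N : ℕ) (v t : V) (F : V → W) (x : V) :
    avg N v (fun x => F (x + t) - F x) x = avg N v F (x + t) - avg N v F x := by
  simp only [avg, Finset.sum_sub_distrib, smul_sub]
  congr 3
  funext a
  congr 1
  abel

lemma avgs_diff (N : ℕ) (l : List V) (t : V) (F : V → W) (x : V) :
    avgs N l (fun x => F (x + t) - F x) x = avgs N l F (x + t) - avgs N l F x := by
  induction l generalizing x with
  | nil => rfl
  | cons v l ih =>
    rw [avgs_cons, avgs_cons, ← avg_diff]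
    congr 1
    funext y
    exact ih y

/-- Asymptotic additivity of averages. -/
lemma avgs_additive {N : ℕ} (hN : 0 < N) {L : ℝ≥0} {l : List V} {F : V → W}
    (hF : LipschitzWith L F) {w : V} (hw : w ∈ l) (v : V) :
    ‖(avgs N l F (v + w) - avgs N l F 0) - (avgs N l F v - avgs N l F 0)
      - (avgs N l F w - avgs N l F 0)‖ ≤ 2 * L * ‖v‖ / N := by
  have hN' : (0 : ℝ) < N := by exact_mod_cast hN
  obtain ⟨H, hH, e⟩ := exists_avgs_eq (P := fun F => LipschitzWith L F)
    (fun v _ h => avg_lipschitz (N := N) v h) hw hF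
  have h1 := avg_step N w H v
  have h2 := avg_step N w H 0
  rw [zero_add, zero_add] at h2
  rw [e]
  have : (avg N w H (v + w) - avg N w H 0) - (avg N w H v - avg N w H 0)
      - (avg N w H w - avg N w H 0) =
      (N : ℝ)⁻¹ • ((H (v + N • w) - H (N • w)) - (H v - H 0)) := by
    calc _ = (avg N w H (v + w) - avg N w H v) - (avg N w H w - avg N w H 0) := by abel
      _ = _ := by rw [h1, h2, ← smul_sub]; congr 1; abel
  rw [this, norm_smul, norm_inv, Real.norm_of_nonneg hN'.le, inv_mul_eq_div]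
  gcongr
  have h3 : ‖H (v + N • w) - H (N • w)‖ ≤ L * ‖v‖ := by
    have := hH.dist_le_mul (v + N • w) (N • w)
    rw [dist_eq_norm, dist_eq_norm] at this
    simpa using this
  have h4 : ‖H v - H 0‖ ≤ L * ‖v‖ := by
    have := hH.dist_le_mul v 0
    rw [dist_eq_norm, dist_eq_norm] at this
    simpa using this
  linarith [norm_sub_le (H (v + N • w) - H (N • w)) (H v - H 0)]

/-- Increments of averages in the direction of a member of the list are nearly independent of the
base point. -/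
lemma avgs_incr {N : ℕ} (hN : 0 < N) {L : ℝ≥0} {l : List V} {F : V → W}
    (hF : LipschitzWith L F) {w : V} (hw : w ∈ l) (x : V) :
    ‖(avgs N l F (x + w) - avgs N l F x) - (avgs N l F w - avgs N l F 0)‖
      ≤ 2 * L / N * ‖x‖ := by
  have := avgs_additive hN hF hw x
  calc _ = ‖(avgs N l F (x + w) - avgs N l F 0) - (avgs N l F x - avgs N l F 0)
      - (avgs N l F w - avgs N l F 0)‖ := by congr 1; abel
    _ ≤ _ := this
    _ = _ := by ring

/-- Averages of functions converging along the range of `T`. -/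
lemma tendsto_avgs {U : Type*} [NormedAddCommGroup U] [NormedSpace ℝ U]
    (T : U →L[ℝ] V) (R : U →L[ℝ] W) (p : ℕ → V → W) (c : W)
    (hp : ∀ u, Tendsto (fun n => p n (T u)) atTop (𝓝 (R u + c))) {N : ℕ} (hN : 0 < N) (w : U) :
    ∀ u, Tendsto (fun n => avg N (T w) (p n) (T u)) atTop
      (𝓝 (R u + (c + (N : ℝ)⁻¹ • ∑ a ∈ Finset.range N, a • R w))) := by
  intro u
  have hN' : (0 : ℝ) < N := by exact_mod_cast hN
  have e : R u + (c + (N : ℝ)⁻¹ • ∑ a ∈ Finset.range N, a • R w)
      = (N : ℝ)⁻¹ • ∑ a ∈ Finset.range N, (R (u + a • w) + c) := by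
    simp only [map_add, map_nsmul, Finset.sum_add_distrib, Finset.sum_const, Finset.card_range,
      smul_add]
    rw [← Nat.cast_smul_eq_nsmul ℝ N (R u), ← Nat.cast_smul_eq_nsmul ℝ N c, smul_smul, smul_smul,
      inv_mul_cancel₀ hN'.ne', one_smul, one_smul]
    abel
  rw [e]
  simp only [avg]
  apply Tendsto.const_smul
  apply tendsto_finsetSum
  intro a _
  have := hp (u + a • w)
  simpa using this

lemma tendsto_avgs' {U : Type*} [NormedAddCommGroup U] [NormedSpace ℝ U]
    (T : U →L[ℝ] V) (R : U →L[ℝ] W) (p : ℕ → V → W)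
    (hp : ∀ u, Tendsto (fun n => p n (T u)) atTop (𝓝 (R u))) {N : ℕ} (hN : 0 < N)
    (l : List U) :
    ∃ c : W, ∀ u, Tendsto (fun n => avgs N (l.map T) (p n) (T u)) atTop (𝓝 (R u + c)) := by
  induction l with
  | nil => exact ⟨0, by simpa using hp⟩
  | cons w l ih =>
    obtain ⟨c, hc⟩ := ih
    exact ⟨_, tendsto_avgs T R (fun n => avgs N (l.map T) (p n)) c hc hN w⟩

end Avg

/-- **Averaging lemma.** -/
theorem averaging {U V W : Type*} [NormedAddCommGroup U] [NormedSpace ℝ U]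
    [TopologicalSpace.SeparableSpace U]
    [NormedAddCommGroup V] [NormedSpace ℝ V] [TopologicalSpace.SeparableSpace V]
    [NormedAddCommGroup W] [NormedSpace ℝ W]
    (M : Submodule ℝ W) (L' L : ℝ≥0) (p : ℕ → V → W) (hp' : ∀ n, LipschitzWith L' (p n))
    (hp : ∀ r : ℝ, ∀ᶠ n in atTop, LipschitzOnWith L (p n) (Metric.closedBall 0 r))
    (hpM : ∀ n v, p n v ∈ M)
    (T : U →L[ℝ] V) (R : U →L[ℝ] W)
    (hlim : ∀ u, Tendsto (fun n => p n (T u)) atTop (𝓝 (R u))) :
    ∃ Φ : ℕ → V → W, (∀ m, LipschitzWith L' (Φ m)) ∧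
      (∀ r : ℝ, ∀ᶠ m in atTop, LipschitzOnWith L (Φ m) (Metric.closedBall 0 r)) ∧
      (∀ m, Φ m 0 = 0) ∧
      (∀ m v, Φ m v ∈ M) ∧
      (∀ v v', Tendsto (fun m => Φ m (v + v') - Φ m v - Φ m v') atTop (𝓝 0)) ∧
      (∀ u, Tendsto (fun m => Φ m (T u)) atTop (𝓝 (R u))) := by
  classical
  let ds : ℕ → V := TopologicalSpace.denseSeq V
  let es : ℕ → U := TopologicalSpace.denseSeq U
  let lV : ℕ → List V := fun m => (List.range m).map ds
  let lU : ℕ → List U := fun m => (List.range m).map es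
  -- the parameters
  have key : ∀ m : ℕ, ∃ (N' n : ℕ), 0 < N' ∧
      2 * (L' : ℝ) / N' * disp (m + 1) (lV m) ≤ 1 / (m + 1) ∧
      LipschitzOnWith L (p n) (Metric.closedBall 0
        ((m + disp (m + 1) (lV m)) + disp N' ((lU m).map T))) ∧
      ∀ j < m, ‖avgs N' ((lU m).map T) (p n) (T (es j)) - avgs N' ((lU m).map T) (p n) 0
        - R (es j)‖ ≤ 1 / (m + 1) := by
    intro m
    have hm : (0 : ℝ) < 1 / (m + 1) := by positivity
    have t1 : Tendsto (fun N' : ℕ => 2 * (L' : ℝ) / N' * disp (m + 1) (lV m)) atTop (𝓝 0) := by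
      have := (tendsto_const_div_atTop_nhds_zero_nat (2 * (L' : ℝ))).mul_const
        (disp (m + 1) (lV m))
      simpa using this
    obtain ⟨N', hN', hN0⟩ := ((t1.eventually_le_const hm).and (eventually_gt_atTop 0)).exists
    obtain ⟨c, hc⟩ := tendsto_avgs' T R p hlim hN0 (lU m)
    have t2 : ∀ j < m, ∀ᶠ n in atTop, ‖avgs N' ((lU m).map T) (p n) (T (es j))
        - avgs N' ((lU m).map T) (p n) 0 - R (es j)‖ ≤ 1 / (m + 1) := by
      intro j _
      have h1 := hc (es j)
      have h2 := hc 0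
      rw [map_zero, map_zero, zero_add] at h2
      have h3 := ((h1.sub h2).sub_const (R (es j))).norm
      have h4 : R (es j) + c - c - R (es j) = 0 := by abel
      rw [h4, norm_zero] at h3
      exact h3.eventually_le_const hm
    have t3 : ∀ᶠ n in atTop, ∀ j < m, ‖avgs N' ((lU m).map T) (p n) (T (es j))
        - avgs N' ((lU m).map T) (p n) 0 - R (es j)‖ ≤ 1 / (m + 1) := by
      have := (Finset.range m).eventually_all (l := atTop)
        (p := fun j n => ‖avgs N' ((lU m).map T) (p n) (T (es j))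
        - avgs N' ((lU m).map T) (p n) 0 - R (es j)‖ ≤ 1 / (m + 1))
      simp only [Finset.mem_range] at this
      exact this.2 t2
    obtain ⟨n, hn1, hn2⟩ := (t3.and (hp ((m + disp (m + 1) (lV m))
      + disp N' ((lU m).map T)))).exists
    exact ⟨N', n, hN0, hN', hn2, hn1⟩
  choose N' n hN0 hN1 hloc hn using key
  let F : ℕ → V → W := fun m => avgs (N' m) ((lU m).map T) (p (n m))
  have hF : ∀ m, LipschitzWith L' (F m) := fun m => avgs_lipschitz _ (hp' _)
  let G : ℕ → V → W := fun m => avgs (m + 1) (lV m) (F m)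
  have hG : ∀ m, LipschitzWith L' (G m) := fun m => avgs_lipschitz _ (hF m)
  let Φ : ℕ → V → W := fun m v => G m v - G m 0
  have hΦ : ∀ m, LipschitzWith L' (Φ m) := by
    intro m
    refine LipschitzWith.of_dist_le_mul fun x y => ?_
    have := (hG m).dist_le_mul x y
    rw [dist_eq_norm] at this ⊢
    simpa [Φ] using this
  have hΦloc : ∀ r : ℝ, ∀ᶠ m in atTop, LipschitzOnWith L (Φ m) (Metric.closedBall 0 r) := by
    intro r
    obtain ⟨m₀, hm₀⟩ := exists_nat_ge r
    filter_upwards [eventually_ge_atTop m₀] with m hm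
    have hrm : r ≤ m := hm₀.trans (by exact_mod_cast hm)
    have h1 : LipschitzOnWith L (G m) (Metric.closedBall 0 (m : ℝ)) :=
      avgs_lipschitzOn _ (avgs_lipschitzOn _ (by simpa using hloc m))
    have h2 := h1.mono (Metric.closedBall_subset_closedBall hrm)
    refine LipschitzOnWith.of_dist_le_mul fun x hx y hy => ?_
    have := h2.dist_le_mul x hx y hy
    rw [dist_eq_norm] at this ⊢
    simpa [Φ] using this
  have hΦadd : ∀ j v, Tendsto (fun m => Φ m (v + ds j) - Φ m v - Φ m (ds j)) atTop (𝓝 0) := by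
    intro j v
    have t : Tendsto (fun m : ℕ => 2 * (L' : ℝ) * ‖v‖ / ((m + 1 : ℕ) : ℝ)) atTop (𝓝 0) :=
      (tendsto_const_div_atTop_nhds_zero_nat (2 * (L' : ℝ) * ‖v‖)).comp (tendsto_add_atTop_nat 1)
    refine squeeze_zero_norm' ?_ t
    filter_upwards [eventually_gt_atTop j] with m hm
    have hmem : ds j ∈ lV m := List.mem_map.2 ⟨j, List.mem_range.2 hm, rfl⟩
    exact avgs_additive (Nat.succ_pos m) (hF m) hmem v
  have hΦT : ∀ j, Tendsto (fun m => Φ m (T (es j))) atTop (𝓝 (R (es j))) := by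
    intro j
    rw [tendsto_iff_norm_sub_tendsto_zero]
    have t : Tendsto (fun m : ℕ => 2 * (1 / ((m : ℝ) + 1))) atTop (𝓝 0) := by
      simpa using (tendsto_one_div_add_atTop_nhds_zero_nat (𝕜 := ℝ)).const_mul 2
    refine squeeze_zero' (Eventually.of_forall fun m => norm_nonneg _) ?_ t
    filter_upwards [eventually_gt_atTop j] with m hm
    have hmem : T (es j) ∈ (lU m).map T :=
      List.mem_map.2 ⟨es j, List.mem_map.2 ⟨j, List.mem_range.2 hm, rfl⟩, rfl⟩
    set c : W := F m (T (es j)) - F m 0 with hc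
    have h1 : ∀ x, ‖(F m (x + T (es j)) - F m x) - c‖ ≤ 2 * L' / (N' m) * ‖x‖ :=
      fun x => avgs_incr (hN0 m) (hp' _) hmem x
    have h2 := avgs_near (N := m + 1) (Nat.succ_pos m) (lV m)
      (Q := fun x => F m (x + T (es j)) - F m x) (c := c) (κ := 2 * L' / (N' m))
      (by positivity) h1 0
    rw [avgs_diff, norm_zero, zero_add, zero_add] at h2
    have h3 : ‖Φ m (T (es j)) - c‖ ≤ 1 / (m + 1) := h2.trans (hN1 m)
    have h4 : ‖c - R (es j)‖ ≤ 1 / (m + 1) := hn m j hm
    calc ‖Φ m (T (es j)) - R (es j)‖ = ‖(Φ m (T (es j)) - c) + (c - R (es j))‖ := by congr 1; abel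
      _ ≤ 1 / (m + 1) + 1 / (m + 1) := (norm_add_le _ _).trans (add_le_add h3 h4)
      _ = 2 * (1 / ((m : ℝ) + 1)) := by ring
  refine ⟨Φ, hΦ, hΦloc, fun m => by simp [Φ], fun m v => ?_, ?_, ?_⟩
  · exact M.sub_mem (avgs_mem M _ (avgs_mem M _ (hpM _)) v) (avgs_mem M _ (avgs_mem M _ (hpM _)) 0)
  · intro v v'
    rw [Metric.tendsto_atTop]
    intro ε hε
    -- approximate v' by a member of the dense sequence
    obtain ⟨j, hj⟩ : ∃ j, dist v' (ds j) < ε / (4 * (L' + 1)) := by
      have hd : DenseRange ds := TopologicalSpace.denseRange_denseSeq V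
      have := hd.exists_dist_lt v' (ε := ε / (4 * (L' + 1))) (by positivity)
      exact this
    obtain ⟨m₀, hm₀⟩ := Metric.tendsto_atTop.1 (hΦadd j v) (ε / 2) (by positivity)
    refine ⟨m₀, fun m hm => ?_⟩
    have h0 := hm₀ m hm
    rw [dist_zero_right] at h0 ⊢
    have h1 : ‖Φ m (v + v') - Φ m (v + ds j)‖ ≤ L' * dist v' (ds j) := by
      have := (hΦ m).dist_le_mul (v + v') (v + ds j)
      rwa [dist_eq_norm, dist_add_left] at this
    have h2 : ‖Φ m v' - Φ m (ds j)‖ ≤ L' * dist v' (ds j) := by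
      have := (hΦ m).dist_le_mul v' (ds j)
      rwa [dist_eq_norm] at this
    have h3 : (L' : ℝ) * dist v' (ds j) ≤ ε / 4 := by
      have hL : (0 : ℝ) ≤ L' := L'.2
      calc (L' : ℝ) * dist v' (ds j) ≤ (L' + 1) * (ε / (4 * (L' + 1))) := by
            gcongr; linarith
        _ = ε / 4 := by field_simp
    calc ‖Φ m (v + v') - Φ m v - Φ m v'‖
        = ‖(Φ m (v + ds j) - Φ m v - Φ m (ds j)) + (Φ m (v + v') - Φ m (v + ds j))
          - (Φ m v' - Φ m (ds j))‖ := by congr 1; abel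
      _ ≤ ‖Φ m (v + ds j) - Φ m v - Φ m (ds j)‖ + ‖Φ m (v + v') - Φ m (v + ds j)‖
          + ‖Φ m v' - Φ m (ds j)‖ := (norm_sub_le _ _).trans (by gcongr; exact norm_add_le _ _)
      _ < ε / 2 + ε / 4 + ε / 4 := by linarith
      _ = ε := by ring
  · intro u
    rw [Metric.tendsto_atTop]
    intro ε hε
    obtain ⟨j, hj⟩ : ∃ j, dist u (es j) < ε / (2 * (L' * ‖T‖ + ‖R‖ + 1)) := by
      have hd : DenseRange es := TopologicalSpace.denseRange_denseSeq U
      exact hd.exists_dist_lt u (by positivity)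
    obtain ⟨m₀, hm₀⟩ := Metric.tendsto_atTop.1 (hΦT j) (ε / 2) (by positivity)
    refine ⟨m₀, fun m hm => ?_⟩
    have h0 := hm₀ m hm
    rw [dist_eq_norm] at h0 ⊢
    have h1 : ‖Φ m (T u) - Φ m (T (es j))‖ ≤ L' * (‖T‖ * dist u (es j)) := by
      have := (hΦ m).dist_le_mul (T u) (T (es j))
      rw [dist_eq_norm, dist_eq_norm, ← map_sub] at this
      refine this.trans ?_
      gcongr
      rw [dist_eq_norm]
      exact T.le_opNorm _
    have h2 : ‖R u - R (es j)‖ ≤ ‖R‖ * dist u (es j) := by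
      rw [← map_sub, dist_eq_norm]
      exact R.le_opNorm _
    have h3 : (L' * ‖T‖ + ‖R‖) * dist u (es j) ≤ ε / 2 := by
      have hpos : 0 ≤ (L' : ℝ) * ‖T‖ + ‖R‖ := by positivity
      calc (L' * ‖T‖ + ‖R‖) * dist u (es j)
          ≤ (L' * ‖T‖ + ‖R‖ + 1) * (ε / (2 * (L' * ‖T‖ + ‖R‖ + 1))) :=
            mul_le_mul (by linarith) hj.le dist_nonneg (by linarith)
        _ = ε / 2 := by field_simp
    calc ‖Φ m (T u) - R u‖
        = ‖(Φ m (T (es j)) - R (es j)) + (Φ m (T u) - Φ m (T (es j))) - (R u - R (es j))‖ := by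
          congr 1; abel
      _ ≤ ‖Φ m (T (es j)) - R (es j)‖ + ‖Φ m (T u) - Φ m (T (es j))‖ + ‖R u - R (es j)‖ :=
          (norm_sub_le _ _).trans (by gcongr; exact norm_add_le _ _)
      _ < ε / 2 + L' * (‖T‖ * dist u (es j)) + ‖R‖ * dist u (es j) := by linarith
      _ = ε / 2 + (L' * ‖T‖ + ‖R‖) * dist u (es j) := by ring
      _ ≤ ε := by linarith

end Vale.Agent.P124.R2
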