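import Mathlib

open Filter Topology
open scoped NNReal ENNReal

namespace Vale.Agent.P124.R2

section LpOne

variable {E : ℕ → Type*} [∀ i, NormedAddCommGroup (E i)]

lemma one_toReal_pos : 0 < (1 : ℝ≥0∞).toReal := by simp

lemma lp1_hasSum_norm (x : lp E 1) : HasSum (fun k => ‖x k‖) ‖x‖ := by
  have := lp.hasSum_norm one_toReal_pos x
  simpa using this

lemma lp1_summable (x : lp E 1) : Summable (fun k => ‖x k‖) := (lp1_hasSum_norm x).summable

lemma lp1_norm (x : lp E 1) : ‖x‖ = ∑' k, ‖x k‖ := (lp1_hasSum_norm x).tsum_eq.symm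

lemma lp1_sum_le (x : lp E 1) (s : Finset ℕ) : ∑ k ∈ s, ‖x k‖ ≤ ‖x‖ :=
  sum_le_hasSum s (fun _ _ => norm_nonneg _) (lp1_hasSum_norm x)

lemma lp1_norm_le {x : lp E 1} {C : ℝ} (hC : 0 ≤ C)
    (h : ∀ s : Finset ℕ, ∑ k ∈ s, ‖x k‖ ≤ C) : ‖x‖ ≤ C := by
  apply lp.norm_le_of_forall_sum_le one_toReal_pos hC
  simpa using h

lemma lp1_memlp {x : ∀ k, E k} {C : ℝ} (h : ∀ s : Finset ℕ, ∑ k ∈ s, ‖x k‖ ≤ C) :
    Memℓp x 1 := by
  apply memℓp_gen' (C := C)
  simpa using h

/-- Brezis-Lieb in `l1`. -/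
lemma lp1_brezis_lieb {ι : Type*} {l : Filter ι} {f : ι → lp E 1} {a : lp E 1} {C : ℝ}
    (hf : ∀ᶠ m in l, ‖f m‖ ≤ C) (h : ∀ k, Tendsto (fun m => f m k) l (𝓝 (a k)))
    {η : ℝ} (hη : 0 < η) : ∀ᶠ m in l, ‖f m - a‖ ≤ C - ‖a‖ + η := by
  -- choose a finite set capturing most of `a`
  obtain ⟨s, hs⟩ : ∃ s : Finset ℕ, ‖a‖ - η / 4 < ∑ k ∈ s, ‖a k‖ := by
    have := (lp1_hasSum_norm a).eventually (lt_mem_nhds (by linarith : ‖a‖ - η / 4 < ‖a‖))
    exact this.exists
  have h1 : Tendsto (fun m => ∑ k ∈ s, ‖f m k - a k‖) l (𝓝 0) := by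
    have : Tendsto (fun m => ∑ k ∈ s, ‖f m k - a k‖) l (𝓝 (∑ k ∈ s, (0 : ℝ))) := by
      apply tendsto_finsetSum
      intro k _
      have := ((h k).sub_const (a k)).norm
      simpa using this
    simpa using this
  have h2 : Tendsto (fun m => ∑ k ∈ s, ‖f m k‖) l (𝓝 (∑ k ∈ s, ‖a k‖)) :=
    tendsto_finsetSum _ fun k _ => (h k).norm
  have h3 := h1.eventually (gt_mem_nhds (by positivity : (0 : ℝ) < η / 4))
  have h4 := h2.eventually (lt_mem_nhds (by linarith : ∑ k ∈ s, ‖a k‖ - η / 4 < ∑ k ∈ s, ‖a k‖))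
  filter_upwards [hf, h3, h4] with m hm h3 h4
  have hC : ‖f m - a‖ ≤ ∑ k ∈ s, ‖f m k - a k‖ + (‖f m‖ - ∑ k ∈ s, ‖f m k‖)
      + (‖a‖ - ∑ k ∈ s, ‖a k‖) := by
    have e1 : ∀ x : lp E 1, ‖x‖ = ∑ k ∈ s, ‖x k‖ + ∑' k : {k // k ∉ s}, ‖x k‖ := by
      intro x
      rw [lp1_norm]
      exact ((lp1_summable x).sum_add_tsum_subtype_compl s).symm
    have e2 : ∑' k : {k // k ∉ s}, ‖(f m - a) k‖
        ≤ ∑' k : {k // k ∉ s}, ‖f m k‖ + ∑' k : {k // k ∉ s}, ‖a k‖ := by
      have sf : Summable (fun k : {k // k ∉ s} => ‖f m k‖) :=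
        (lp1_summable (f m)).subtype {k | k ∉ s}
      have sa : Summable (fun k : {k // k ∉ s} => ‖a k‖) :=
        (lp1_summable a).subtype {k | k ∉ s}
      have sd : Summable (fun k : {k // k ∉ s} => ‖(f m - a) k‖) :=
        (lp1_summable (f m - a)).subtype {k | k ∉ s}
      have := sd.tsum_le_tsum (fun k : {k // k ∉ s} => norm_sub_le (f m k) (a k)) (sf.add sa)
      exact this.trans_eq (sf.tsum_add sa)
    have e3 : ∑ k ∈ s, ‖(f m - a) k‖ = ∑ k ∈ s, ‖f m k - a k‖ := rfl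
    have e4 := e1 (f m - a)
    have e5 := e1 (f m)
    have e6 := e1 a
    linarith
  linarith

/-- `lp E 1` is separable when all `E k` are. -/
lemma lp1_separable [∀ i, TopologicalSpace.SeparableSpace (E i)] :
    TopologicalSpace.SeparableSpace (lp E 1) := by
  rw [← TopologicalSpace.isSeparable_univ_iff]
  let S : ℕ → Set (lp E 1) := fun n =>
    Set.range (fun x : (∀ i : Fin n, E i) => ∑ i : Fin n, lp.single 1 (i : ℕ) (x i))
  have hS : ∀ n, TopologicalSpace.IsSeparable (S n) := by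
    intro n
    apply TopologicalSpace.isSeparable_range
    apply continuous_finsetSum
    intro i _
    exact (lp.isometry_single (E := E) (p := 1) (i : ℕ)).continuous.comp (continuous_apply i)
  have h2 : TopologicalSpace.IsSeparable (closure (⋃ n, S n)) :=
    (TopologicalSpace.IsSeparable.iUnion hS).closure
  refine h2.mono fun x _ => ?_
  have hx := lp.hasSum_single (E := E) (p := 1) (by simp) x
  have hx' := hx.tendsto_sum_nat
  refine mem_closure_of_tendsto hx' (Eventually.of_forall fun n => ?_)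
  refine Set.mem_iUnion.2 ⟨n, fun i => x i, ?_⟩
  exact (Finset.sum_range (fun i => lp.single 1 i (x i))).symm

variable [∀ i, NormedSpace ℝ (E i)]

/-- The operator on `lp E 1` defined by a bounded sequence of operators on the summands. -/
noncomputable def glue {W : Type*} [NormedAddCommGroup W] [NormedSpace ℝ W] [CompleteSpace W]
    (C : ∀ k, E k →L[ℝ] W) (D : ℝ) (hD : ∀ k e, ‖C k e‖ ≤ D * ‖e‖) : lp E 1 →L[ℝ] W :=
  LinearMap.mkContinuous
    { toFun := fun x => ∑' k, C k (x k)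
      map_add' := fun x y => by
        have sx : Summable fun k => C k (x k) :=
          Summable.of_norm_bounded ((lp1_summable x).mul_left D) fun k => hD k _
        have sy : Summable fun k => C k (y k) :=
          Summable.of_norm_bounded ((lp1_summable y).mul_left D) fun k => hD k _
        rw [← sx.tsum_add sy]
        refine tsum_congr fun k => ?_
        rw [lp.coeFn_add, Pi.add_apply, map_add]
      map_smul' := fun c x => by
        rw [RingHom.id_apply, ← tsum_const_smul'']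
        refine tsum_congr fun k => ?_
        rw [lp.coeFn_smul, Pi.smul_apply, map_smul] } D
    (fun x => by
      have : ‖∑' k, C k (x k)‖ ≤ ∑' k, D * ‖x k‖ :=
        tsum_of_norm_bounded ((lp1_summable x).mul_left D).hasSum fun k => hD k _
      rw [tsum_mul_left, ← lp1_norm] at this
      exact this)

lemma glue_apply {W : Type*} [NormedAddCommGroup W] [NormedSpace ℝ W] [CompleteSpace W]
    (C : ∀ k, E k →L[ℝ] W) (D : ℝ) (hD : ∀ k e, ‖C k e‖ ≤ D * ‖e‖) (x : lp E 1) :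
    glue C D hD x = ∑' k, C k (x k) := rfl

lemma glue_summable {W : Type*} [NormedAddCommGroup W] [NormedSpace ℝ W] [CompleteSpace W]
    (C : ∀ k, E k →L[ℝ] W) (D : ℝ) (hD : ∀ k e, ‖C k e‖ ≤ D * ‖e‖) (x : lp E 1) :
    Summable fun k => C k (x k) :=
  Summable.of_norm_bounded ((lp1_summable x).mul_left D) fun k => hD k _

end LpOne

end Vale.Agent.P124.R2
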