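import Mathlib
import Vale.Agent.P124.R2.H124.LpOne
import Vale.Agent.P124.R2.H124.Avg

open Filter Topology
open scoped NNReal ENNReal

namespace Vale.Agent.P124.R2

set_option linter.unusedSectionVars false

section Asymp

variable {V W : Type*} [NormedAddCommGroup V] [NormedSpace ℝ V]
  [NormedAddCommGroup W] [NormedSpace ℝ W]
  {l : Filter ℕ} {Φ : ℕ → V → W} {L : ℝ≥0}

/-- Asymptotically additive Lipschitz sequences are asymptotically real-homogeneous. -/
lemma asymp_smul (hL : ∀ m, LipschitzWith L (Φ m)) (h0 : ∀ m, Φ m 0 = 0)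
    (hadd : ∀ v v', Tendsto (fun m => Φ m (v + v') - Φ m v - Φ m v') l (𝓝 0))
    (c : ℝ) (v : V) : Tendsto (fun m => Φ m (c • v) - c • Φ m v) l (𝓝 0) := by
  -- natural numbers
  have hnat : ∀ (n : ℕ) (v : V), Tendsto (fun m => Φ m ((n : ℝ) • v) - (n : ℝ) • Φ m v) l (𝓝 0) := by
    intro n v
    induction n with
    | zero => simpa [h0] using tendsto_const_nhds
    | succ n ih =>
      have := (hadd ((n : ℝ) • v) v).add ih
      rw [add_zero] at this
      refine this.congr fun m => ?_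
      push_cast
      rw [add_smul, add_smul, one_smul, one_smul]
      abel
  have hneg : ∀ v : V, Tendsto (fun m => Φ m (-v) + Φ m v) l (𝓝 0) := by
    intro v
    have := (hadd v (-v)).neg
    rw [neg_zero] at this
    refine this.congr fun m => ?_
    rw [add_neg_cancel, h0]
    abel
  have hint : ∀ (n : ℤ) (v : V),
      Tendsto (fun m => Φ m ((n : ℝ) • v) - (n : ℝ) • Φ m v) l (𝓝 0) := by
    intro n v
    obtain ⟨k, rfl | rfl⟩ := n.eq_nat_or_neg
    · simpa using hnat k v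
    · have := (hneg ((k : ℝ) • v)).sub (hnat k v)
      rw [sub_zero] at this
      refine this.congr fun m => ?_
      push_cast
      rw [neg_smul, neg_smul]
      abel
  have hrat : ∀ (q : ℚ) (v : V),
      Tendsto (fun m => Φ m ((q : ℝ) • v) - (q : ℝ) • Φ m v) l (𝓝 0) := by
    intro q v
    have hq : (q.den : ℝ) ≠ 0 := by exact_mod_cast q.den_ne_zero
    have e : (q : ℝ) = (q.num : ℝ) / q.den := by exact_mod_cast (Rat.num_div_den q).symm
    have h1 := hnat q.den ((q : ℝ) • v)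
    have h2 := hint q.num v
    have h3 : ((q.den : ℕ) : ℝ) • ((q : ℝ) • v) = (q.num : ℝ) • v := by
      rw [smul_smul, e]; congr 1; field_simp
    rw [h3] at h1
    have h4 := (h2.sub h1).const_smul ((q.den : ℝ)⁻¹)
    rw [sub_zero, smul_zero] at h4
    refine h4.congr fun m => ?_
    rw [sub_sub_sub_cancel_left, smul_sub, smul_smul, smul_smul, inv_mul_cancel₀ hq, one_smul, e]
    congr 2
    field_simp
  rw [Metric.tendsto_nhds]
  intro ε hε
  obtain ⟨q, hq⟩ : ∃ q : ℚ, |c - q| < ε / (2 * (2 * L * ‖v‖ + 1)) := by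
    have := Rat.denseRange_cast (𝕜 := ℝ) |>.exists_dist_lt c
      (ε := ε / (2 * (2 * L * ‖v‖ + 1))) (by positivity)
    simpa [Real.dist_eq] using this
  filter_upwards [(Metric.tendsto_nhds.1 (hrat q v)) (ε / 2) (by positivity)] with m hm
  rw [dist_zero_right] at hm ⊢
  have h1 : ‖Φ m (c • v) - Φ m ((q : ℝ) • v)‖ ≤ L * (|c - q| * ‖v‖) := by
    have := (hL m).dist_le_mul (c • v) ((q : ℝ) • v)
    rwa [dist_eq_norm, dist_eq_norm, ← sub_smul, norm_smul, Real.norm_eq_abs] at this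
  have h2 : ‖(q : ℝ) • Φ m v - c • Φ m v‖ ≤ |c - q| * (L * ‖v‖) := by
    rw [← sub_smul, norm_smul, Real.norm_eq_abs, abs_sub_comm]
    gcongr
    have := (hL m).dist_le_mul v 0
    rwa [dist_eq_norm, dist_eq_norm, h0, sub_zero, sub_zero] at this
  have h3 : (2 * L * ‖v‖) * |c - q| ≤ ε / 2 := by
    have h4 : (0 : ℝ) ≤ 2 * L * ‖v‖ := by positivity
    calc (2 * L * ‖v‖) * |c - q| ≤ (2 * L * ‖v‖ + 1) * (ε / (2 * (2 * L * ‖v‖ + 1))) :=
          mul_le_mul (by linarith) hq.le (abs_nonneg _) (by linarith)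
      _ = ε / 2 := by field_simp
  calc ‖Φ m (c • v) - c • Φ m v‖
      = ‖(Φ m (c • v) - Φ m ((q : ℝ) • v)) + (Φ m ((q : ℝ) • v) - (q : ℝ) • Φ m v)
        + ((q : ℝ) • Φ m v - c • Φ m v)‖ := by congr 1; abel
    _ ≤ ‖Φ m (c • v) - Φ m ((q : ℝ) • v)‖ + ‖Φ m ((q : ℝ) • v) - (q : ℝ) • Φ m v‖
        + ‖(q : ℝ) • Φ m v - c • Φ m v‖ := norm_add₃_le
    _ < L * (|c - q| * ‖v‖) + ε / 2 + |c - q| * (L * ‖v‖) := by
        linarith
    _ = (2 * L * ‖v‖) * |c - q| + ε / 2 := by ring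
    _ ≤ ε := by linarith

lemma asymp_sum (h0 : ∀ m, Φ m 0 = 0)
    (hadd : ∀ v v', Tendsto (fun m => Φ m (v + v') - Φ m v - Φ m v') l (𝓝 0))
    {ι : Type*} (s : Finset ι) (x : ι → V) :
    Tendsto (fun m => Φ m (∑ i ∈ s, x i) - ∑ i ∈ s, Φ m (x i)) l (𝓝 0) := by
  classical
  induction s using Finset.induction_on with
  | empty => simpa [h0] using tendsto_const_nhds
  | insert a s ha ih =>
    have := (hadd (x a) (∑ i ∈ s, x i)).add ih
    rw [add_zero] at this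
    refine this.congr fun m => ?_
    rw [Finset.sum_insert ha, Finset.sum_insert ha]
    abel

/-- Linear approximation on finite-dimensional spaces. -/
lemma exists_linear_approx [l.NeBot] (hL : ∀ m, LipschitzWith L (Φ m)) (h0 : ∀ m, Φ m 0 = 0)
    (hadd : ∀ v v', Tendsto (fun m => Φ m (v + v') - Φ m v - Φ m v') l (𝓝 0))
    (M : Submodule ℝ W) (hM : ∀ m v, Φ m v ∈ M)
    {G : Type*} [NormedAddCommGroup G] [NormedSpace ℝ G] [FiniteDimensional ℝ G]
    (j : G →L[ℝ] V) (A : V →L[ℝ] W) (D : ℝ)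
    (hA : ∀ x, ∀ η > 0, ∀ᶠ m in l, ‖Φ m x - A x‖ ≤ D * ‖x‖ - ‖A x‖ + η)
    (hj : ∀ e, ‖j e‖ = ‖e‖) {η : ℝ} (hη : 0 < η) :
    ∃ C : G →L[ℝ] W, (∀ e, C e ∈ M) ∧ ∀ e, ‖C e - A (j e)‖ ≤ (D + η) * ‖e‖ - ‖A (j e)‖ := by
  classical
  let b := Module.Basis.ofVectorSpace ℝ G
  let C : ℕ → (G →ₗ[ℝ] W) := fun m => b.constr ℝ (fun i => Φ m (j (b i)))
  have hC : ∀ m e, C m e = ∑ i, b.repr e i • Φ m (j (b i)) := by
    intro m e
    rw [Module.Basis.constr_apply_fintype]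
    rfl
  -- pointwise approximation
  have hlim : ∀ e, Tendsto (fun m => Φ m (j e) - C m e) l (𝓝 0) := by
    intro e
    have h1 := asymp_sum h0 hadd Finset.univ (fun i => b.repr e i • j (b i))
    have h2 : Tendsto (fun m => ∑ i, (Φ m (b.repr e i • j (b i)) - b.repr e i • Φ m (j (b i))))
        l (𝓝 0) := by
      have := tendsto_finsetSum (Finset.univ) (fun i _ => asymp_smul hL h0 hadd (b.repr e i)
        (j (b i)))
      simpa using this
    have h3 := h1.add h2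
    rw [add_zero] at h3
    refine h3.congr fun m => ?_
    have e1 : ∑ i, b.repr e i • j (b i) = j e := by
      conv_rhs => rw [← b.sum_repr e]
      rw [map_sum]
      simp
    rw [e1, hC, Finset.sum_sub_distrib]
    abel
  -- uniform bound on `C m`
  obtain ⟨B, hB0, hB⟩ : ∃ B : ℝ, 0 ≤ B ∧ ∀ m e, ‖C m e‖ ≤ B * ‖e‖ := by
    let β := (b.equivFun.toLinearMap).toContinuousLinearMap
    refine ⟨∑ i, ‖β‖ * (L * ‖b i‖), by positivity, fun m e => ?_⟩
    rw [hC, Finset.sum_mul]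
    refine (norm_sum_le _ _).trans (Finset.sum_le_sum fun i _ => ?_)
    rw [norm_smul]
    have h1 : ‖b.repr e i‖ ≤ ‖β‖ * ‖e‖ := (norm_le_pi_norm (β e) i).trans (β.le_opNorm e)
    have h2 : ‖Φ m (j (b i))‖ ≤ L * ‖b i‖ := by
      have := (hL m).dist_le_mul (j (b i)) 0
      rwa [dist_eq_norm, dist_eq_norm, h0, sub_zero, sub_zero, hj] at this
    calc ‖b.repr e i‖ * ‖Φ m (j (b i))‖ ≤ (‖β‖ * ‖e‖) * (L * ‖b i‖) := by gcongr
      _ = ‖β‖ * (L * ‖b i‖) * ‖e‖ := by ring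
  -- the function to be controlled
  let h : ℕ → G → ℝ := fun m e => ‖C m e - A (j e)‖ + ‖A (j e)‖ - D * ‖e‖
  have hpt : ∀ e, ∀ᶠ m in l, h m e ≤ η / 2 := by
    intro e
    have h1 := hA (j e) (η / 4) (by positivity)
    have h2 := (Metric.tendsto_nhds.1 (hlim e)) (η / 4) (by positivity)
    filter_upwards [h1, h2] with m h1 h2
    rw [dist_zero_right] at h2
    have h3 : ‖C m e - A (j e)‖ ≤ ‖Φ m (j e) - A (j e)‖ + ‖Φ m (j e) - C m e‖ := by
      calc ‖C m e - A (j e)‖ = ‖(Φ m (j e) - A (j e)) - (Φ m (j e) - C m e)‖ := by congr 1; abel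
        _ ≤ _ := norm_sub_le _ _
    rw [hj] at h1
    change ‖C m e - A (j e)‖ + ‖A (j e)‖ - D * ‖e‖ ≤ η / 2
    linarith
  let Λ : ℝ := B + 2 * ‖A‖ + |D|
  have hΛ : 0 ≤ Λ := by positivity
  have hlip : ∀ m e e', h m e ≤ h m e' + Λ * ‖e - e'‖ := by
    intro m e e'
    have h1 : ‖C m e - A (j e)‖ ≤ ‖C m e' - A (j e')‖ + B * ‖e - e'‖ + ‖A‖ * ‖e - e'‖ := by
      calc ‖C m e - A (j e)‖ = ‖(C m e' - A (j e')) + C m (e - e') - A (j (e - e'))‖ := by
            rw [map_sub, map_sub, map_sub]; congr 1; abel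
        _ ≤ ‖C m e' - A (j e')‖ + ‖C m (e - e')‖ + ‖A (j (e - e'))‖ :=
            (norm_sub_le _ _).trans (by gcongr; exact norm_add_le _ _)
        _ ≤ _ := by
            have := A.le_opNorm (j (e - e'))
            rw [hj] at this
            gcongr
            exact hB m _
    have h2 : ‖A (j e)‖ ≤ ‖A (j e')‖ + ‖A‖ * ‖e - e'‖ := by
      have := A.le_opNorm (j (e - e'))
      rw [hj] at this
      calc ‖A (j e)‖ = ‖A (j e') + A (j (e - e'))‖ := by
            rw [← map_add, ← map_add]; congr 3; abel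
        _ ≤ ‖A (j e')‖ + ‖A (j (e - e'))‖ := norm_add_le _ _
        _ ≤ _ := by gcongr
    have h3 : D * ‖e'‖ - D * ‖e‖ ≤ |D| * ‖e - e'‖ := by
      rw [← mul_sub]
      calc D * (‖e'‖ - ‖e‖) ≤ |D * (‖e'‖ - ‖e‖)| := le_abs_self _
        _ = |D| * |‖e'‖ - ‖e‖| := abs_mul _ _
        _ ≤ |D| * ‖e - e'‖ := by
            gcongr
            rw [abs_sub_comm]
            exact abs_norm_sub_norm_le _ _
    change ‖C m e - A (j e)‖ + ‖A (j e)‖ - D * ‖e‖
      ≤ ‖C m e' - A (j e')‖ + ‖A (j e')‖ - D * ‖e'‖ + (B + 2 * ‖A‖ + |D|) * ‖e - e'‖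
    linarith
  -- compactness of the unit sphere
  obtain ⟨t, _, ht, hcov⟩ := (isCompact_sphere (0 : G) 1).finite_cover_balls
    (e := η / (2 * (Λ + 1))) (by positivity)
  have hev : ∀ᶠ m in l, ∀ e ∈ t, h m e ≤ η / 2 := (ht.eventually_all).2 fun e _ => hpt e
  obtain ⟨m, hm⟩ := hev.exists
  have hsph : ∀ e : G, ‖e‖ = 1 → h m e ≤ η := by
    intro e he
    have he' : e ∈ Metric.sphere (0 : G) 1 := by simpa using he
    obtain ⟨e', he't, hee'⟩ := Set.mem_iUnion₂.1 (hcov he')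
    rw [Metric.mem_ball, dist_eq_norm] at hee'
    have h1 := hlip m e e'
    have h2 := hm e' he't
    have h3 : Λ * ‖e - e'‖ ≤ η / 2 := by
      calc Λ * ‖e - e'‖ ≤ (Λ + 1) * (η / (2 * (Λ + 1))) :=
            mul_le_mul (by linarith) hee'.le (norm_nonneg _) (by linarith)
        _ = η / 2 := by field_simp
    linarith
  refine ⟨(C m).toContinuousLinearMap, fun e => ?_, fun e => ?_⟩
  · change C m e ∈ M
    rw [hC]
    exact M.sum_mem fun i _ => M.smul_mem _ (hM _ _)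
  · change ‖C m e - A (j e)‖ ≤ (D + η) * ‖e‖ - ‖A (j e)‖
    rcases eq_or_ne e 0 with rfl | he
    · simp
    have hpos : 0 < ‖e‖ := norm_pos_iff.2 he
    have hu : ‖(‖e‖⁻¹ • e : G)‖ = 1 := by
      rw [norm_smul, norm_inv, norm_norm, inv_mul_cancel₀ hpos.ne']
    have h1 := hsph _ hu
    change ‖C m (‖e‖⁻¹ • e) - A (j (‖e‖⁻¹ • e))‖ + ‖A (j (‖e‖⁻¹ • e))‖ - D * ‖(‖e‖⁻¹ • e : G)‖ ≤ η
      at h1
    rw [hu, map_smul, map_smul, map_smul, ← smul_sub, norm_smul, norm_smul, norm_inv, norm_norm]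
      at h1
    have h2 : ‖e‖ * (‖e‖⁻¹ * ‖C m e - A (j e)‖ + ‖e‖⁻¹ * ‖A (j e)‖ - D * 1) ≤ ‖e‖ * η := by
      gcongr
    have h3 : ‖e‖ * (‖e‖⁻¹ * ‖C m e - A (j e)‖ + ‖e‖⁻¹ * ‖A (j e)‖ - D * 1)
        = ‖C m e - A (j e)‖ + ‖A (j e)‖ - D * ‖e‖ := by
      field_simp
    linarith

end Asymp

/-- Neumann series: an operator close to the identity has a left inverse. -/
lemma left_inverse_of_near {X : Type*} [NormedAddCommGroup X] [NormedSpace ℝ X] [CompleteSpace X]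
    (c : X →L[ℝ] X) (θ : ℝ) (hθ : θ < 1) (h : ∀ y, ‖c y - y‖ ≤ θ * ‖y‖) :
    ∃ d : X →L[ℝ] X, ∀ y, d (c y) = y := by
  have hc : ‖(1 : X →L[ℝ] X) - c‖ < 1 := by
    by_cases htriv : ∀ y : X, y = 0
    · have : (1 : X →L[ℝ] X) - c = 0 := by
        ext y
        rw [htriv y]
        simp
      rw [this, norm_zero]
      exact one_pos
    · push Not at htriv
      obtain ⟨y, hy⟩ := htriv
      have hθ0 : 0 ≤ θ := by
        have h3 := (norm_nonneg _).trans (h y)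
        exact nonneg_of_mul_nonneg_left h3 (norm_pos_iff.2 hy)
      refine lt_of_le_of_lt (ContinuousLinearMap.opNorm_le_bound _ hθ0 fun y => ?_) hθ
      have e : ((1 : X →L[ℝ] X) - c) y = y - c y := rfl
      rw [e, norm_sub_rev]
      exact h y
  let u := Units.oneSub _ hc
  have hu : u.val = c := by
    rw [Units.val_oneSub]
    abel
  refine ⟨u⁻¹.val, fun y => ?_⟩
  have h2 : u⁻¹.val * u.val = 1 := Units.inv_mul u
  rw [hu] at h2
  exact DFunLike.congr_fun h2 y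

/-- A closed subspace `M` on which some operator with values in `M` is close to the identity is
complemented. -/
lemma proj_of_near {X : Type*} [NormedAddCommGroup X] [NormedSpace ℝ X] [CompleteSpace X]
    (M : Submodule ℝ X) (hMc : IsClosed (M : Set X)) (CC : X →L[ℝ] X) (hCCM : ∀ x, CC x ∈ M)
    (θ : ℝ) (hθ : θ < 1) (h : ∀ y ∈ M, ‖CC y - y‖ ≤ θ * ‖y‖) :
    ∃ P : X →L[ℝ] M, ∀ y : M, P y = y := by
  have : CompleteSpace M := hMc.completeSpace_coe
  let P₀ : X →L[ℝ] M := CC.codRestrict M hCCM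
  obtain ⟨d, hd⟩ := left_inverse_of_near (P₀.comp M.subtypeL) θ hθ fun y => h y y.2
  exact ⟨d.comp P₀, hd⟩

section Ultra

variable {V : Type*} [NormedAddCommGroup V] [NormedSpace ℝ V]
  {E : ℕ → Type*} [∀ i, NormedAddCommGroup (E i)] [∀ i, NormedSpace ℝ (E i)]
  [∀ i, FiniteDimensional ℝ (E i)]

/-- The coordinatewise ultrafilter limit of an asymptotically additive sequence. -/
theorem exists_ultralimit (Φ : ℕ → V → lp E 1) (L : ℝ≥0) (D : ℝ)
    (hL : ∀ m, LipschitzWith L (Φ m)) (h0 : ∀ m, Φ m 0 = 0)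
    (hD : ∀ x, ∀ᶠ m in atTop, ‖Φ m x‖ ≤ D * ‖x‖)
    (hadd : ∀ v v', Tendsto (fun m => Φ m (v + v') - Φ m v - Φ m v') atTop (𝓝 0)) :
    ∃ A : V →L[ℝ] lp E 1, (∀ x, ‖A x‖ ≤ D * ‖x‖) ∧
      ∀ x k, Tendsto (fun m => Φ m x k) (hyperfilter ℕ) (𝓝 (A x k)) := by
  let 𝒰 : Ultrafilter ℕ := hyperfilter ℕ
  have hle : (𝒰 : Filter ℕ) ≤ atTop := Nat.hyperfilter_le_atTop
  have hbd : ∀ m x, ‖Φ m x‖ ≤ L * ‖x‖ := by
    intro m x
    have := (hL m).dist_le_mul x 0
    rwa [dist_eq_norm, dist_eq_norm, h0, sub_zero, sub_zero] at this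
  have hex : ∀ x k, ∃ a : E k, Tendsto (fun m => Φ m x k) 𝒰 (𝓝 a) := by
    intro x k
    have hc : IsCompact (Metric.closedBall (0 : E k) (L * ‖x‖)) := by
      have : ProperSpace (E k) := FiniteDimensional.proper ℝ (E k)
      exact isCompact_closedBall _ _
    obtain ⟨a, _, ha⟩ := hc.ultrafilter_le_nhds (𝒰.map fun m => Φ m x k) (by
      rw [le_principal_iff, Ultrafilter.mem_coe, Ultrafilter.mem_map]
      refine Eventually.of_forall fun m => ?_
      exact mem_closedBall_zero_iff.2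
        ((lp.norm_apply_le_norm one_ne_zero _ _).trans (hbd m x)))
    exact ⟨a, ha⟩
  choose a ha using hex
  have hDx : ∀ x, ∀ᶠ m in (𝒰 : Filter ℕ), ‖Φ m x‖ ≤ D * ‖x‖ := fun x => hle (hD x)
  have hsum : ∀ x (s : Finset ℕ), ∑ k ∈ s, ‖a x k‖ ≤ D * ‖x‖ := by
    intro x s
    have h1 : Tendsto (fun m => ∑ k ∈ s, ‖Φ m x k‖) 𝒰 (𝓝 (∑ k ∈ s, ‖a x k‖)) :=
      tendsto_finsetSum _ fun k _ => (ha x k).norm
    exact le_of_tendsto h1 ((hDx x).mono fun m hm => (lp1_sum_le _ s).trans hm)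
  have hDnn : ∀ x : V, 0 ≤ D * ‖x‖ := fun x => by simpa using hsum x ∅
  let A₀ : V → lp E 1 := fun x => ⟨a x, lp1_memlp (hsum x)⟩
  have hA₀ : ∀ x, ‖A₀ x‖ ≤ D * ‖x‖ := fun x => lp1_norm_le (hDnn x) (hsum x)
  have hA₀k : ∀ x k, A₀ x k = a x k := fun _ _ => rfl
  have haddA : ∀ x y, A₀ (x + y) = A₀ x + A₀ y := by
    intro x y
    ext k
    rw [lp.coeFn_add, Pi.add_apply, hA₀k, hA₀k, hA₀k]
    have h1 : Tendsto (fun m => (Φ m (x + y) - Φ m x - Φ m y) k) 𝒰 (𝓝 ((0 : lp E 1) k)) :=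
      ((lp.lipschitzWith_one_eval 1 k).continuous.tendsto _).comp ((hadd x y).mono_left hle)
    have h2 : Tendsto (fun m => (Φ m (x + y) - Φ m x - Φ m y) k) 𝒰
        (𝓝 (a (x + y) k - a x k - a y k)) := ((ha (x + y) k).sub (ha x k)).sub (ha y k)
    have h3 := tendsto_nhds_unique h2 h1
    rw [lp.coeFn_zero, Pi.zero_apply, sub_sub, sub_eq_zero] at h3
    exact h3
  let Ah : V →+ lp E 1 := AddMonoidHom.mk' A₀ haddA
  have hcont : Continuous Ah := by
    have : LipschitzWith (Real.toNNReal D) Ah := by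
      apply LipschitzWith.of_dist_le_mul
      intro x y
      rw [dist_eq_norm, ← map_sub, dist_eq_norm]
      refine (hA₀ (x - y)).trans ?_
      gcongr
      exact Real.le_coe_toNNReal D
    exact this.continuous
  exact ⟨Ah.toRealLinearMap hcont, hA₀, fun x k => ha x k⟩

/-- Main perturbation step. -/
theorem exists_projection (M : Submodule ℝ (lp E 1)) (hMc : IsClosed (M : Set (lp E 1)))
    (Φ : ℕ → lp E 1 → lp E 1) (L' : ℝ≥0) (D : ℝ) (hD2 : D < 2)
    (hL : ∀ m, LipschitzWith L' (Φ m)) (h0 : ∀ m, Φ m 0 = 0)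
    (hD : ∀ x, ∀ᶠ m in atTop, ‖Φ m x‖ ≤ D * ‖x‖)
    (hadd : ∀ v v', Tendsto (fun m => Φ m (v + v') - Φ m v - Φ m v') atTop (𝓝 0))
    (hM : ∀ m v, Φ m v ∈ M) (hid : ∀ y ∈ M, Tendsto (fun m => Φ m y) atTop (𝓝 y)) :
    ∃ P : lp E 1 →L[ℝ] M, ∀ y : M, P y = y := by
  obtain ⟨A, hAD, hA⟩ := exists_ultralimit Φ L' D hL h0 hD hadd
  have hle : (hyperfilter ℕ : Filter ℕ) ≤ atTop := Nat.hyperfilter_le_atTop
  have hAid : ∀ y ∈ M, A y = y := by
    intro y hy
    ext k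
    have h1 : Tendsto (fun m => Φ m y k) (hyperfilter ℕ) (𝓝 (y k)) :=
      ((lp.lipschitzWith_one_eval 1 k).continuous.tendsto _).comp ((hid y hy).mono_left hle)
    exact tendsto_nhds_unique (hA y k) h1
  have hBL : ∀ x, ∀ η > 0, ∀ᶠ m in (hyperfilter ℕ : Filter ℕ),
      ‖Φ m x - A x‖ ≤ D * ‖x‖ - ‖A x‖ + η := fun x η hη =>
    lp1_brezis_lieb (hle (hD x)) (hA x) hη
  -- choose η
  set η : ℝ := (2 - D) / 2 with hη
  have hη0 : 0 < η := by rw [hη]; linarith
  have hC : ∀ k, ∃ C : E k →L[ℝ] lp E 1, (∀ e, C e ∈ M) ∧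
      ∀ e, ‖C e - A (lp.singleContinuousLinearMap ℝ E 1 k e)‖
        ≤ (D + η) * ‖e‖ - ‖A (lp.singleContinuousLinearMap ℝ E 1 k e)‖ := fun k =>
    exists_linear_approx hL h0 (fun v v' => (hadd v v').mono_left hle) M hM
      (lp.singleContinuousLinearMap ℝ E 1 k) A D hBL
      (fun e => lp.norm_single (by simp) k e) hη0
  choose C hCM hC using hC
  have hCn : ∀ k e, ‖C k e‖ ≤ (D + η) * ‖e‖ := by
    intro k e
    calc ‖C k e‖ = ‖(C k e - A (lp.singleContinuousLinearMap ℝ E 1 k e))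
          + A (lp.singleContinuousLinearMap ℝ E 1 k e)‖ := by congr 1; abel
      _ ≤ _ := norm_add_le _ _
      _ ≤ _ := by linarith [hC k e]
  let CC : lp E 1 →L[ℝ] lp E 1 := glue C (D + η) hCn
  have hCCM : ∀ x, CC x ∈ M := by
    intro x
    have hs := (glue_summable C (D + η) hCn x).hasSum
    exact hMc.mem_of_tendsto hs (Eventually.of_forall fun s => M.sum_mem fun k _ => hCM k _)
  have hCA : ∀ x, ‖CC x - A x‖ ≤ (D + η) * ‖x‖ - ‖A x‖ := by
    intro x
    have hs1 := (glue_summable C (D + η) hCn x).hasSum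
    have hs2 : HasSum (fun k => A (lp.single 1 k (x k))) (A x) :=
      (lp.hasSum_single (by simp) x).mapL A
    have hs3 := hs1.sub hs2
    have hsx := lp1_hasSum_norm x
    -- the norms of the summands of `A x`
    have hsA : Summable (fun k => ‖A (lp.single 1 k (x k))‖) := by
      refine Summable.of_nonneg_of_le (fun _ => norm_nonneg _) (fun k => ?_)
        ((lp1_summable x).mul_left ‖A‖)
      have := A.le_opNorm (lp.single 1 k (x k))
      rwa [lp.norm_single (by simp)] at this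
    have hle2 : ‖CC x - A x‖ ≤ (D + η) * ‖x‖ - ∑' k, ‖A (lp.single 1 k (x k))‖ := by
      have hb : HasSum (fun k => (D + η) * ‖x k‖ - ‖A (lp.single 1 k (x k))‖)
          ((D + η) * ‖x‖ - ∑' k, ‖A (lp.single 1 k (x k))‖) :=
        (hsx.mul_left (D + η)).sub hsA.hasSum
      have := tsum_of_norm_bounded hb (fun k => hC k (x k))
      have e : ∑' k, (C k (x k) - A (lp.singleContinuousLinearMap ℝ E 1 k (x k)))
          = CC x - A x := hs3.tsum_eq
      rw [e] at this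
      exact this
    have hle3 : ‖A x‖ ≤ ∑' k, ‖A (lp.single 1 k (x k))‖ := by
      rw [← hs2.tsum_eq]
      exact norm_tsum_le_tsum_norm hsA
    linarith
  exact proj_of_near M hMc CC hCCM (D + η - 1) (by rw [hη]; linarith) fun y hy => by
    have h2 := hCA y
    rw [hAid y hy] at h2
    linarith

end Ultra

end Vale.Agent.P124.R2
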