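import Mathlib
import Vale.Agent.P124.R2.H124.Core
import Vale.Agent.P124.R2.helper830.Gateaux

open Filter Topology MeasureTheory
open scoped NNReal ENNReal

namespace Vale.Agent.P124.R2

section BlowUp

variable {X Y : Type*} [NormedAddCommGroup X] [NormedSpace ℝ X]
  [NormedAddCommGroup Y] [NormedSpace ℝ Y]

/-- The scales `1 / (n + 1)`. -/
noncomputable def scale (n : ℕ) : ℝ := 1 / ((n : ℝ) + 1)

lemma scale_pos (n : ℕ) : 0 < scale n := by unfold scale; positivity

lemma tendsto_scale : Tendsto scale atTop (𝓝 0) := tendsto_one_div_add_atTop_nhds_zero_nat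

lemma tendsto_scale' : Tendsto scale atTop (𝓝[≠] 0) :=
  tendsto_nhdsWithin_iff.2 ⟨tendsto_scale, Eventually.of_forall fun n => (scale_pos n).ne'⟩

/-- Blow-up of `f` at `x₀`. -/
noncomputable def blow (f : X → Y) (x₀ : X) (n : ℕ) (x : X) : Y :=
  (scale n)⁻¹ • (f (x₀ + scale n • x) - f x₀)

lemma blow_lipschitz {f : X → Y} {L : ℝ≥0} (hf : LipschitzWith L f) (x₀ : X) (n : ℕ) :
    LipschitzWith L (blow f x₀ n) := by
  refine LipschitzWith.of_dist_le_mul fun x y => ?_
  have hs := scale_pos n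
  have h := hf.dist_le_mul (x₀ + scale n • x) (x₀ + scale n • y)
  rw [dist_add_left, dist_eq_norm, dist_eq_norm, ← smul_sub, norm_smul,
    Real.norm_of_nonneg hs.le] at h
  rw [dist_eq_norm, dist_eq_norm, blow, blow, ← smul_sub, norm_smul, norm_inv,
    Real.norm_of_nonneg hs.le, inv_mul_le_iff₀ hs]
  calc ‖f (x₀ + scale n • x) - f x₀ - (f (x₀ + scale n • y) - f x₀)‖
      = ‖f (x₀ + scale n • x) - f (x₀ + scale n • y)‖ := by congr 1; abel
    _ ≤ L * (scale n * ‖x - y‖) := h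
    _ = scale n * (L * ‖x - y‖) := by ring

lemma blow_lipschitzOn {f : X → Y} {L : ℝ≥0} {O : Set X} (hO : IsOpen O)
    (hf : LipschitzOnWith L f O) {x₀ : X} (hx₀ : x₀ ∈ O) (r : ℝ) :
    ∀ᶠ n in atTop, LipschitzOnWith L (blow f x₀ n) (Metric.closedBall 0 r) := by
  obtain ⟨δ, hδ, hball⟩ := Metric.isOpen_iff.1 hO x₀ hx₀
  have h1 : Tendsto (fun n => scale n * (|r| + 1)) atTop (𝓝 0) := by
    simpa using tendsto_scale.mul_const (|r| + 1)
  filter_upwards [h1.eventually (gt_mem_nhds hδ)] with n hn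
  have hs := scale_pos n
  have key : ∀ x ∈ Metric.closedBall (0 : X) r, x₀ + scale n • x ∈ O := by
    intro x hx
    apply hball
    rw [mem_closedBall_zero_iff] at hx
    rw [Metric.mem_ball, dist_eq_norm, add_sub_cancel_left, norm_smul, Real.norm_of_nonneg hs.le]
    refine lt_of_le_of_lt ?_ hn
    gcongr
    exact hx.trans ((le_abs_self r).trans (by linarith))
  refine LipschitzOnWith.of_dist_le_mul fun x hx y hy => ?_
  have h := hf.dist_le_mul _ (key x hx) _ (key y hy)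
  rw [dist_add_left, dist_eq_norm, dist_eq_norm, ← smul_sub, norm_smul,
    Real.norm_of_nonneg hs.le] at h
  rw [dist_eq_norm, dist_eq_norm, blow, blow, ← smul_sub, norm_smul, norm_inv,
    Real.norm_of_nonneg hs.le, inv_mul_le_iff₀ hs]
  calc ‖f (x₀ + scale n • x) - f x₀ - (f (x₀ + scale n • y) - f x₀)‖
      = ‖f (x₀ + scale n • x) - f (x₀ + scale n • y)‖ := by congr 1; abel
    _ ≤ L * (scale n * ‖x - y‖) := h
    _ = scale n * (L * ‖x - y‖) := by ring

lemma blow_comp {f : X → Y} {g : Y → X} {y₀ : Y} (hfg : ∀ y, f (g y) = y) (n : ℕ) (y : Y) :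
    blow f (g y₀) n (blow g y₀ n y) = y := by
  have hs := (scale_pos n).ne'
  rw [blow, blow, smul_smul, mul_inv_cancel₀ hs, one_smul, add_sub_cancel, hfg, hfg,
    add_sub_cancel_left, smul_smul, inv_mul_cancel₀ hs, one_smul]

/-- If `g` is Gateaux differentiable at `y₀` with derivative `S` and `f ∘ g = id`, then the
blow-ups of `f` at `g y₀` converge to `y` at `S y`. -/
lemma tendsto_blow_left {f : X → Y} {g : Y → X} {L : ℝ≥0} (hf : LipschitzWith L f)
    (hfg : ∀ y, f (g y) = y) {y₀ : Y} {S : Y → X}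
    (hS : ∀ v, Tendsto (fun t : ℝ => t⁻¹ • (g (y₀ + t • v) - g y₀)) (𝓝[≠] 0) (𝓝 (S v))) (v : Y) :
    Tendsto (fun n => blow f (g y₀) n (S v)) atTop (𝓝 v) := by
  rw [tendsto_iff_dist_tendsto_zero]
  have h1 : Tendsto (fun n => blow g y₀ n v) atTop (𝓝 (S v)) := (hS v).comp tendsto_scale'
  have h2 : Tendsto (fun n => (L : ℝ) * dist (S v) (blow g y₀ n v)) atTop (𝓝 0) := by
    have := (tendsto_const_nhds.dist h1 : Tendsto (fun n => dist (S v) (blow g y₀ n v)) atTop
      (𝓝 (dist (S v) (S v))))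
    rw [dist_self] at this
    simpa using this.const_mul (L : ℝ)
  refine squeeze_zero (fun n => dist_nonneg) (fun n => ?_) h2
  have h3 := (blow_lipschitz hf (g y₀) n).dist_le_mul (S v) (blow g y₀ n v)
  rwa [blow_comp hfg] at h3

lemma le_norm_deriv {f : X → Y} {g : Y → X} {L : ℝ≥0} (hf : LipschitzWith L f)
    (hfg : ∀ y, f (g y) = y) {y₀ : Y} {S : Y → X}
    (hS : ∀ v, Tendsto (fun t : ℝ => t⁻¹ • (g (y₀ + t • v) - g y₀)) (𝓝[≠] 0) (𝓝 (S v))) (v : Y) :
    ‖v‖ ≤ L * ‖S v‖ := by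
  have h1 : Tendsto (fun n => (L : ℝ) * ‖blow g y₀ n v‖) atTop (𝓝 (L * ‖S v‖)) :=
    (((hS v).comp tendsto_scale').norm).const_mul _
  refine ge_of_tendsto' h1 fun n => ?_
  have h2 := (blow_lipschitz hf (g y₀) n).dist_le_mul (blow g y₀ n v) 0
  rw [blow_comp hfg, dist_eq_norm, dist_eq_norm, sub_zero] at h2
  have h3 : blow f (g y₀) n 0 = 0 := by simp [blow]
  rwa [h3, sub_zero] at h2

lemma norm_deriv_le {g : Y → X} {K : ℝ≥0} {O : Set Y} (hO : IsOpen O)
    (hg : LipschitzOnWith K g O) {y₀ : Y} (hy₀ : y₀ ∈ O) {S : Y → X}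
    (hS : ∀ v, Tendsto (fun t : ℝ => t⁻¹ • (g (y₀ + t • v) - g y₀)) (𝓝[≠] 0) (𝓝 (S v))) (v : Y) :
    ‖S v‖ ≤ K * ‖v‖ := by
  have h1 : Tendsto (fun n => ‖blow g y₀ n v‖) atTop (𝓝 ‖S v‖) :=
    ((hS v).comp tendsto_scale').norm
  refine le_of_tendsto h1 ?_
  filter_upwards [blow_lipschitzOn hO hg hy₀ ‖v‖] with n hn
  have h2 := hn.dist_le_mul v (by simp) 0 (by simp)
  have h3 : blow g y₀ n 0 = 0 := by simp [blow]
  rwa [h3, dist_zero_right, dist_zero_right] at h2

end BlowUp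

section Main

variable {E : ℕ → Type*} [∀ i, NormedAddCommGroup (E i)]
    [∀ i, NormedSpace ℝ (E i)] [∀ i, FiniteDimensional ℝ (E i)]
    {Y : Type*} [NormedAddCommGroup Y] [NormedSpace ℝ Y] [CompleteSpace Y]

lemma lp1_separable' : TopologicalSpace.SeparableSpace (lp E 1) := by
  have : ∀ i, TopologicalSpace.SeparableSpace (E i) := fun i => by
    have : ProperSpace (E i) := FiniteDimensional.proper ℝ (E i)
    infer_instance
  exact lp1_separable

/-- Part C with the Rademacher theorem for `lp E 1` as a hypothesis. -/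
theorem complemented_of_factor_aux
    (hR : ∀ (n : ℕ) (G : (Fin n → ℝ) → lp E 1) (L : ℝ≥0), LipschitzWith L G →
      ∀ᵐ z : Fin n → ℝ, DifferentiableAt ℝ G z)
    (g : Y → lp E 1) (f : lp E 1 → Y) (K' L' K L : ℝ≥0) (hg : LipschitzWith K' g)
    (hf : LipschitzWith L' f) (hfg : ∀ y, f (g y) = y)
    (O : Set (lp E 1)) (hO : IsOpen O) (O' : Set Y) (hO' : IsOpen O') (hne : O'.Nonempty)
    (hOO : Set.MapsTo g O' O) (hgO : LipschitzOnWith K g O') (hfO : LipschitzOnWith L f O)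
    (hKL : K * L < 2) :
    ∃ (S : Y →L[ℝ] lp E 1) (Q : lp E 1 →L[ℝ] Y), ∀ y, Q (S y) = y := by
  have hsX : TopologicalSpace.SeparableSpace (lp E 1) := lp1_separable'
  have hsY : TopologicalSpace.SeparableSpace Y :=
    (Function.LeftInverse.surjective hfg).denseRange.separableSpace hf.continuous
  obtain ⟨y₀, hy₀, S, hS⟩ := exists_gateaux hR g K' hg O' hO' hne
  have hSL : ∀ v, ‖v‖ ≤ L' * ‖S v‖ := le_norm_deriv hf hfg hS
  have hSK : ∀ v, ‖S v‖ ≤ K * ‖v‖ := norm_deriv_le hO' hgO hy₀ hS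
  have hanti : AntilipschitzWith L' S := by
    refine AddMonoidHomClass.antilipschitz_of_bound S hSL
  have hinj : Function.Injective S := hanti.injective
  have hclo : IsClosed (Set.range S) := (hanti.isClosed_range S.uniformContinuous)
  -- the range of `S`
  let M : Submodule ℝ (lp E 1) := S.range
  have hMc : IsClosed (M : Set (lp E 1)) := by
    have : (M : Set (lp E 1)) = Set.range S := by
      ext x; simp [M]
    rw [this]
    exact hclo
  -- the maps `p n`
  let p : ℕ → lp E 1 → lp E 1 := fun n x => S (blow f (g y₀) n x)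
  have hSlip : LipschitzWith K S := by
    refine AddMonoidHomClass.lipschitz_of_bound_nnnorm S K fun v => ?_
    exact_mod_cast hSK v
  have hp' : ∀ n, LipschitzWith (K * L') (p n) := fun n =>
    hSlip.comp (blow_lipschitz hf _ n)
  have hp : ∀ r : ℝ, ∀ᶠ n in atTop, LipschitzOnWith (K * L) (p n) (Metric.closedBall 0 r) := by
    intro r
    filter_upwards [blow_lipschitzOn hO hfO (hOO hy₀) r] with n hn
    exact hSlip.comp_lipschitzOnWith hn
  have hpM : ∀ n v, p n v ∈ M := fun n v => ⟨_, rfl⟩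
  have hlim : ∀ u, Tendsto (fun n => p n (S u)) atTop (𝓝 (S u)) := fun u =>
    (S.continuous.tendsto u).comp (tendsto_blow_left hf hfg hS u)
  obtain ⟨Φ, h1, h2, h3, h4, h5, h6⟩ := averaging M (K * L') (K * L) p hp' hp hpM S S hlim
  have hD : ∀ x, ∀ᶠ m in atTop, ‖Φ m x‖ ≤ ((K * L : ℝ≥0) : ℝ) * ‖x‖ := by
    intro x
    filter_upwards [h2 ‖x‖] with m hm
    have := hm.dist_le_mul x (by simp) 0 (by simp)
    rwa [h3, dist_zero_right, dist_zero_right] at this
  obtain ⟨P, hP⟩ := exists_projection M hMc Φ (K * L') ((K * L : ℝ≥0) : ℝ) (by exact_mod_cast hKL)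
    h1 h3 hD h5 h4 (by
      rintro y ⟨v, rfl⟩
      exact h6 v)
  let e := S.equivRange hinj hclo
  refine ⟨S, (e.symm : S.range →L[ℝ] Y).comp P, fun y => ?_⟩
  have h7 : P (S y) = e y := hP ⟨S y, y, rfl⟩
  rw [ContinuousLinearMap.comp_apply, h7]
  exact e.symm_apply_apply y

/-- Part C2 with the Rademacher theorem for `lp E 1` as a hypothesis. -/
theorem source_complemented_aux
    (hR : ∀ (n : ℕ) (G : (Fin n → ℝ) → lp E 1) (L : ℝ≥0), LipschitzWith L G →
      ∀ᵐ z : Fin n → ℝ, DifferentiableAt ℝ G z)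
    (f : lp E 1 → Y) (g : Y → lp E 1) (K L : ℝ≥0) (hg : LipschitzWith K g)
    (hf : LipschitzWith L f) (hgf : ∀ x, g (f x) = x) (hfg : ∀ y, f (g y) = y) :
    ∃ (T : lp E 1 →L[ℝ] Y) (G : Y →L[ℝ] lp E 1), ∀ x, G (T x) = x := by
  have hsX : TopologicalSpace.SeparableSpace (lp E 1) := lp1_separable'
  have hsY : TopologicalSpace.SeparableSpace Y :=
    (Function.LeftInverse.surjective hfg).denseRange.separableSpace hf.continuous
  obtain ⟨y₀, -, S, hS⟩ := exists_gateaux hR g K hg Set.univ isOpen_univ ⟨0, trivial⟩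
  have hSL : ∀ v, ‖v‖ ≤ L * ‖S v‖ := le_norm_deriv hf hfg hS
  have hanti : AntilipschitzWith L S := AddMonoidHomClass.antilipschitz_of_bound S hSL
  have hinj : Function.Injective S := hanti.injective
  have hclo : IsClosed (Set.range S) := (hanti.isClosed_range S.uniformContinuous)
  -- differentiate `S ∘ f`
  have hSf : LipschitzWith (‖S‖₊ * L) (fun x => S (f x)) := S.lipschitz.comp hf
  obtain ⟨x₀, -, T', hT'⟩ := exists_gateaux hR (fun x => S (f x)) _ hSf Set.univ isOpen_univ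
    ⟨0, trivial⟩
  have hT'' : ∀ v, Tendsto (fun t : ℝ => S (t⁻¹ • (f (x₀ + t • v) - f x₀))) (𝓝[≠] 0)
      (𝓝 (T' v)) := by
    intro v
    refine (hT' v).congr fun t => ?_
    rw [map_smul, map_sub]
  have hrange : ∀ v, T' v ∈ Set.range S := fun v =>
    hclo.mem_of_tendsto (hT'' v) (Eventually.of_forall fun t => ⟨_, rfl⟩)
  let e := S.equivRange hinj hclo
  let T₁ : lp E 1 →L[ℝ] S.range := T'.codRestrict S.range (fun v => by
    obtain ⟨w, hw⟩ := hrange v
    exact ⟨w, hw⟩)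
  let T : lp E 1 →L[ℝ] Y := (e.symm : S.range →L[ℝ] Y).comp T₁
  have hST : ∀ v, S (T v) = T' v := by
    intro v
    have h1 : e (T v) = T₁ v := e.apply_symm_apply _
    have h2 : ((e (T v) : S.range) : lp E 1) = S (T v) := rfl
    rw [← h2, h1]
    rfl
  have hT : ∀ v, Tendsto (fun t : ℝ => t⁻¹ • (f (x₀ + t • v) - f x₀)) (𝓝[≠] 0) (𝓝 (T v)) := by
    intro v
    have h1 := hT'' v
    rw [← hST] at h1
    exact (hanti.isInducing S.continuous).tendsto_nhds_iff.2 h1
  -- blow-ups of `g` at `f x₀`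
  let p : ℕ → Y → lp E 1 := fun n y => blow g (f x₀) n y
  have hp' : ∀ n, LipschitzWith K (p n) := fun n => blow_lipschitz hg _ n
  have hp : ∀ r : ℝ, ∀ᶠ n in atTop, LipschitzOnWith K (p n) (Metric.closedBall 0 r) := fun r =>
    Eventually.of_forall fun n => (hp' n).lipschitzOnWith
  have hlim : ∀ u, Tendsto (fun n => p n (T u)) atTop (𝓝 (ContinuousLinearMap.id ℝ (lp E 1) u)) :=
    fun u => tendsto_blow_left hg hgf hT u
  obtain ⟨Φ, h1, -, h3, -, h5, h6⟩ := averaging (⊤ : Submodule ℝ (lp E 1)) K K p hp' hp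
    (fun _ _ => Submodule.mem_top) T (ContinuousLinearMap.id ℝ (lp E 1)) hlim
  have hD : ∀ y, ∀ᶠ m in atTop, ‖Φ m y‖ ≤ (K : ℝ) * ‖y‖ := by
    intro y
    refine Eventually.of_forall fun m => ?_
    have := (h1 m).dist_le_mul y 0
    rwa [h3, dist_zero_right, dist_zero_right] at this
  obtain ⟨A, -, hA⟩ := exists_ultralimit Φ K (K : ℝ) h1 h3 hD h5
  refine ⟨T, A, fun x => ?_⟩
  ext k
  have h7 : Tendsto (fun m => Φ m (T x) k) (hyperfilter ℕ) (𝓝 (x k)) :=
    ((lp.lipschitzWith_one_eval 1 k).continuous.tendsto _).comp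
      ((h6 x).mono_left Nat.hyperfilter_le_atTop)
  exact tendsto_nhds_unique (hA (T x) k) h7

end Main

end Vale.Agent.P124.R2
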