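import Mathlib
import Vale.Agent.P124.R2.H124.BlowUp
import Vale.Agent.P124.R2.helper477.Rademacher

open Filter Topology MeasureTheory
open scoped NNReal ENNReal

namespace Vale.Agent.P124.R2

variable {E : ℕ → Type*} [∀ i, NormedAddCommGroup (E i)]
    [∀ i, NormedSpace ℝ (E i)] [∀ i, FiniteDimensional ℝ (E i)]
    {Y : Type*} [NormedAddCommGroup Y] [NormedSpace ℝ Y] [CompleteSpace Y]

/-- Part C. -/
theorem complemented_of_factor
    (g : Y → lp E 1) (f : lp E 1 → Y) (K' L' K L : ℝ≥0) (hg : LipschitzWith K' g)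
    (hf : LipschitzWith L' f) (hfg : ∀ y, f (g y) = y)
    (O : Set (lp E 1)) (hO : IsOpen O) (O' : Set Y) (hO' : IsOpen O') (hne : O'.Nonempty)
    (hOO : Set.MapsTo g O' O) (hgO : LipschitzOnWith K g O') (hfO : LipschitzOnWith L f O)
    (hKL : K * L < 2) :
    ∃ (S : Y →L[ℝ] lp E 1) (Q : lp E 1 →L[ℝ] Y), ∀ y, Q (S y) = y :=
  complemented_of_factor_aux (fun n G L hG => fd_ae_differentiable E n G L hG) g f K' L' K L hg hf
    hfg O hO O' hO' hne hOO hgO hfO hKL

/-- Part C2. -/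
theorem source_complemented
    (f : lp E 1 → Y) (g : Y → lp E 1) (K L : ℝ≥0) (hg : LipschitzWith K g)
    (hf : LipschitzWith L f) (hgf : ∀ x, g (f x) = x) (hfg : ∀ y, f (g y) = y) :
    ∃ (T : lp E 1 →L[ℝ] Y) (G : Y →L[ℝ] lp E 1), ∀ x, G (T x) = x :=
  source_complemented_aux (fun n G L hG => fd_ae_differentiable E n G L hG) f g K L hg hf hgf hfg

end Vale.Agent.P124.R2
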