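import Mathlib
import Vale.Agent.P124.R2.H124.LpOne

open Filter Topology
open scoped NNReal ENNReal

namespace Vale.Agent.P124.R2

section Ext

variable {E : ℕ → Type*} [∀ i, NormedAddCommGroup (E i)] [∀ i, NormedSpace ℝ (E i)]

lemma glue_single {W : Type*} [NormedAddCommGroup W] [NormedSpace ℝ W] [CompleteSpace W]
    (C : ∀ k, E k →L[ℝ] W) (D : ℝ) (hD : ∀ k e, ‖C k e‖ ≤ D * ‖e‖) (k : ℕ) (e : E k) :
    glue C D hD (lp.single 1 k e) = C k e := by
  rw [glue_apply, tsum_eq_single k]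
  · rw [lp.single_apply_self]
  · intro j hj
    rw [lp.single_apply_ne _ _ _ hj, map_zero]

lemma lp1_hom_ext {W : Type*} [NormedAddCommGroup W] [NormedSpace ℝ W]
    {A B : lp E 1 →L[ℝ] W} (h : ∀ k (e : E k), A (lp.single 1 k e) = B (lp.single 1 k e)) :
    A = B := by
  ext x
  have hx := lp.hasSum_single (E := E) (p := 1) (by simp) x
  have hA := hx.mapL A
  have hB := hx.mapL B
  have : (fun k => A (lp.single 1 k (x k))) = fun k => B (lp.single 1 k (x k)) :=
    funext fun k => h k _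
  rw [this] at hA
  exact hA.unique hB

end Ext

section SelfSum

variable {F : ℕ → Type*} [∀ i, NormedAddCommGroup (F i)] [∀ i, NormedSpace ℝ (F i)]

lemma lp_one_self_sum_of [∀ i, CompleteSpace (F i)] (τ : ℕ × ℕ ≃ ℕ)
    (φ : ∀ i n, F n ≃ₗᵢ[ℝ] F (τ (i, n))) :
    Nonempty (lp F 1 ≃L[ℝ] lp (fun _ : ℕ => lp F 1) 1) := by
  have hs : ∀ x : lp F 1, Summable fun p : ℕ × ℕ => ‖x (τ p)‖ := fun x =>
    (lp1_summable x).comp_injective τ.injective
  have hs' : ∀ (x : lp F 1) i, Summable fun n => ‖(φ i n).symm (x (τ (i, n)))‖ := fun x i => by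
    simpa using (hs x).prod_factor i
  have hmem : ∀ (x : lp F 1) i, Memℓp (fun n => (φ i n).symm (x (τ (i, n)))) 1 := fun x i => by
    apply memℓp_gen
    simpa using hs' x i
  have hnorm : ∀ (x : lp F 1) i, ‖(⟨_, hmem x i⟩ : lp F 1)‖ = ∑' n, ‖x (τ (i, n))‖ := by
    intro x i
    rw [lp1_norm]
    exact tsum_congr fun n => by simp
  have hmem2 : ∀ (x : lp F 1), Memℓp (E := fun _ : ℕ => lp F 1) (fun i => ⟨_, hmem x i⟩) 1 := by
    intro x
    apply memℓp_gen
    have := (hs x).prod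
    simp only [ENNReal.toReal_one, Real.rpow_one, hnorm]
    exact this
  let B₀ : lp F 1 →ₗ[ℝ] lp (fun _ : ℕ => lp F 1) 1 :=
    { toFun := fun x => ⟨_, hmem2 x⟩
      map_add' := fun x y => by
        ext i n
        change (φ i n).symm ((x + y : lp F 1) (τ (i, n))) = (φ i n).symm (x (τ (i, n))) +
          (φ i n).symm (y (τ (i, n)))
        rw [lp.coeFn_add, Pi.add_apply, map_add]
      map_smul' := fun c x => by
        ext i n
        change (φ i n).symm ((c • x : lp F 1) (τ (i, n))) = c • (φ i n).symm (x (τ (i, n)))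
        rw [lp.coeFn_smul, Pi.smul_apply, map_smul] }
  have hB₀ : ∀ x i n, B₀ x i n = (φ i n).symm (x (τ (i, n))) := fun x i n => rfl
  have hB₀norm : ∀ x, ‖B₀ x‖ = ‖x‖ := by
    intro x
    rw [lp1_norm]
    have h1 : ∀ i, ‖B₀ x i‖ = ∑' n, ‖x (τ (i, n))‖ := fun i => hnorm x i
    simp_rw [h1]
    rw [← (hs x).tsum_prod, lp1_norm]
    exact τ.tsum_eq (fun m => ‖x m‖)
  let B : lp F 1 →L[ℝ] lp (fun _ : ℕ => lp F 1) 1 :=
    B₀.mkContinuous 1 fun x => by rw [hB₀norm, one_mul]
  let sg : ∀ m, F m →L[ℝ] lp F 1 := fun m => LinearMap.mkContinuous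
    { toFun := fun e => lp.single 1 m e
      map_add' := fun a b => by rw [lp.single_add]
      map_smul' := fun c a => by rw [lp.single_smul, RingHom.id_apply] } 1
    fun e => by
      change ‖lp.single 1 m e‖ ≤ _
      rw [lp.norm_single (by simp), one_mul]
  have hsg : ∀ m e, sg m e = lp.single 1 m e := fun m e => rfl
  have hA1 : ∀ i k (e : F k), ‖((sg (τ (i, k))).comp
      ((φ i k).toContinuousLinearEquiv : F k →L[ℝ] F (τ (i, k)))) e‖ ≤ 1 * ‖e‖ := by
    intro i k e
    change ‖lp.single 1 (τ (i, k)) (φ i k e)‖ ≤ _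
    rw [lp.norm_single (by simp), one_mul, LinearIsometryEquiv.norm_map]
  let A : lp (fun _ : ℕ => lp F 1) 1 →L[ℝ] lp F 1 :=
    glue (fun i => glue (fun k => (sg (τ (i, k))).comp
      ((φ i k).toContinuousLinearEquiv : F k →L[ℝ] F (τ (i, k)))) 1 (hA1 i)) 1
      (fun i x => by
        have : ‖glue (fun k => (sg (τ (i, k))).comp
          ((φ i k).toContinuousLinearEquiv : F k →L[ℝ] F (τ (i, k)))) 1 (hA1 i)‖ ≤ 1 :=
          LinearMap.mkContinuous_norm_le _ zero_le_one _
        exact (ContinuousLinearMap.le_opNorm _ _).trans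
          (mul_le_mul_of_nonneg_right this (norm_nonneg _)))
  have hBA : B.comp A = ContinuousLinearMap.id ℝ _ := by
    refine lp1_hom_ext fun i x => ?_
    have h2 : (B.comp A).comp (LinearMap.mkContinuous
      { toFun := fun e : lp F 1 => lp.single (E := fun _ : ℕ => lp F 1) 1 i e
        map_add' := fun a b => by rw [lp.single_add]
        map_smul' := fun c a => by
          rw [lp.single_smul (E := fun _ : ℕ => lp F 1) (𝕜 := ℝ), RingHom.id_apply] } 1
          fun e => by
          change ‖lp.single (E := fun _ : ℕ => lp F 1) 1 i e‖ ≤ _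
          rw [lp.norm_single (by simp), one_mul]) = (LinearMap.mkContinuous
      { toFun := fun e : lp F 1 => lp.single (E := fun _ : ℕ => lp F 1) 1 i e
        map_add' := fun a b => by rw [lp.single_add]
        map_smul' := fun c a => by
          rw [lp.single_smul (E := fun _ : ℕ => lp F 1) (𝕜 := ℝ), RingHom.id_apply] } 1
          fun e => by
          change ‖lp.single (E := fun _ : ℕ => lp F 1) 1 i e‖ ≤ _
          rw [lp.norm_single (by simp), one_mul]) := by
      refine lp1_hom_ext fun n e => ?_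
      change B (A (lp.single (E := fun _ : ℕ => lp F 1) 1 i (lp.single 1 n e))) =
        lp.single (E := fun _ : ℕ => lp F 1) 1 i (lp.single 1 n e)
      have h3 : A (lp.single (E := fun _ : ℕ => lp F 1) 1 i (lp.single 1 n e)) =
          lp.single 1 (τ (i, n)) (φ i n e) := by
        change glue _ _ _ _ = _
        rw [glue_single, glue_single]
        rfl
      rw [h3]
      ext i' n'
      change (φ i' n').symm ((lp.single (E := F) 1 (τ (i, n)) (φ i n e)) (τ (i', n'))) = _
      by_cases hi : i' = i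
      · subst hi
        rw [lp.single_apply_self]
        by_cases hn : n' = n
        · subst hn
          rw [lp.single_apply_self, lp.single_apply_self, LinearIsometryEquiv.symm_apply_apply]
        · rw [lp.single_apply_ne, lp.single_apply_ne _ _ _ hn, map_zero]
          intro h
          exact hn (Prod.ext_iff.1 (τ.injective h)).2
      · rw [lp.single_apply_ne, lp.single_apply_ne _ _ _ hi, map_zero]
        · rfl
        · intro h
          exact hi (Prod.ext_iff.1 (τ.injective h)).1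
    exact DFunLike.congr_fun h2 x
  have hBinj : Function.Injective B := by
    rw [injective_iff_map_eq_zero]
    intro x hx
    have : ‖B x‖ = ‖x‖ := hB₀norm x
    rw [hx, norm_zero] at this
    exact norm_eq_zero.1 this.symm
  refine ⟨ContinuousLinearEquiv.equivOfInverse B A (fun x => ?_) (fun z => ?_)⟩
  · apply hBinj
    exact DFunLike.congr_fun hBA (B x)
  · exact DFunLike.congr_fun hBA z

/-- Transport along an equality of indices. -/
def castIso (F : ℕ → Type*) [∀ i, NormedAddCommGroup (F i)] [∀ i, NormedSpace ℝ (F i)]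
    {a b : ℕ} (h : a = b) : F a ≃ₗᵢ[ℝ] F b := h ▸ LinearIsometryEquiv.refl ℝ (F a)

/-- The index bijection `(i, ⟨j, m⟩) ↦ ⟨j, ⟨i, m⟩⟩`. -/
def swapEquiv : ℕ × ℕ ≃ ℕ where
  toFun p := Nat.pair (Nat.unpair p.2).1 (Nat.pair p.1 (Nat.unpair p.2).2)
  invFun m := ((Nat.unpair (Nat.unpair m).2).1,
    Nat.pair (Nat.unpair m).1 (Nat.unpair (Nat.unpair m).2).2)
  left_inv p := by simp
  right_inv m := by simp

theorem lp_one_self_sum (E : ℕ → Type*) [∀ i, NormedAddCommGroup (E i)]
    [∀ i, NormedSpace ℝ (E i)] [∀ i, CompleteSpace (E i)] :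
    Nonempty (lp (fun n : ℕ => E (Nat.unpair n).1) 1 ≃L[ℝ]
      lp (fun _ : ℕ => lp (fun n : ℕ => E (Nat.unpair n).1) 1) 1) :=
  lp_one_self_sum_of (F := fun n : ℕ => E (Nat.unpair n).1) swapEquiv
    (fun i n => castIso E (by simp [swapEquiv]))

theorem lp_one_real_self_sum :
    Nonempty (lp (fun _ : ℕ => ℝ) 1 ≃L[ℝ] lp (fun _ : ℕ => lp (fun _ : ℕ => ℝ) 1) 1) :=
  lp_one_self_sum_of (F := fun _ : ℕ => ℝ) Nat.pairEquiv
    (fun _ _ => LinearIsometryEquiv.refl ℝ ℝ)

end SelfSum

section Pelc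

variable {X Y : Type*} [NormedAddCommGroup X] [NormedSpace ℝ X] [CompleteSpace X]
    [NormedAddCommGroup Y] [NormedSpace ℝ Y] [CompleteSpace Y]

/-- `x ↦ (0,…,0,x,0,…)` as a continuous linear map. -/
noncomputable def sgl (X : Type*) [NormedAddCommGroup X] [NormedSpace ℝ X] (k : ℕ) :
    X →L[ℝ] lp (fun _ : ℕ => X) 1 :=
  LinearMap.mkContinuous
    { toFun := fun e : X => lp.single (E := fun _ : ℕ => X) 1 k e
      map_add' := fun a b => by rw [lp.single_add]
      map_smul' := fun c a => by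
        rw [lp.single_smul (E := fun _ : ℕ => X) (𝕜 := ℝ), RingHom.id_apply] } 1
        fun e => by
          change ‖lp.single (E := fun _ : ℕ => X) 1 k e‖ ≤ _
          rw [lp.norm_single (by simp), one_mul]

lemma sgl_apply (k : ℕ) (x : X) : sgl X k x = lp.single (E := fun _ : ℕ => X) 1 k x := rfl

lemma norm_sgl (k : ℕ) (x : X) : ‖sgl X k x‖ = ‖x‖ := by
  rw [sgl_apply, lp.norm_single (by simp)]

/-- Evaluation at `0`. -/
noncomputable def ev0 (X : Type*) [NormedAddCommGroup X] [NormedSpace ℝ X] [CompleteSpace X] :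
    lp (fun _ : ℕ => X) 1 →L[ℝ] X :=
  glue (fun k => if k = 0 then ContinuousLinearMap.id ℝ X else 0) 1 (fun k e => by
    split_ifs <;> simp)

/-- Right shift. -/
noncomputable def rsh (X : Type*) [NormedAddCommGroup X] [NormedSpace ℝ X] [CompleteSpace X] :
    lp (fun _ : ℕ => X) 1 →L[ℝ] lp (fun _ : ℕ => X) 1 :=
  glue (fun k => sgl X (k + 1)) 1 (fun k e => by rw [norm_sgl, one_mul])

/-- Left shift. -/
noncomputable def lsh (X : Type*) [NormedAddCommGroup X] [NormedSpace ℝ X] [CompleteSpace X] :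
    lp (fun _ : ℕ => X) 1 →L[ℝ] lp (fun _ : ℕ => X) 1 :=
  glue (fun k => if k = 0 then 0 else sgl X (k - 1)) 1 (fun k e => by
    split_ifs
    · simp
    · rw [norm_sgl, one_mul])

/-- Coordinatewise application of an operator. -/
noncomputable def cw (P : X →L[ℝ] X) :
    lp (fun _ : ℕ => X) 1 →L[ℝ] lp (fun _ : ℕ => X) 1 :=
  glue (fun k => (sgl X k).comp P) ‖P‖ (fun k e => by
    rw [ContinuousLinearMap.comp_apply, norm_sgl]
    exact P.le_opNorm e)

lemma ev0_sgl (k : ℕ) (x : X) : ev0 X (sgl X k x) = if k = 0 then x else 0 := by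
  rw [ev0, sgl_apply, glue_single]
  split_ifs <;> simp

lemma rsh_sgl (k : ℕ) (x : X) : rsh X (sgl X k x) = sgl X (k + 1) x := by
  rw [rsh, sgl_apply, glue_single]

lemma lsh_sgl (k : ℕ) (x : X) : lsh X (sgl X k x) = if k = 0 then 0 else sgl X (k - 1) x := by
  rw [lsh, sgl_apply, glue_single]
  split_ifs <;> simp

lemma cw_sgl (P : X →L[ℝ] X) (k : ℕ) (x : X) : cw P (sgl X k x) = sgl X k (P x) := by
  rw [cw, sgl_apply, glue_single]
  rfl

lemma sgl_ext {W : Type*} [NormedAddCommGroup W] [NormedSpace ℝ W]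
    {A B : lp (fun _ : ℕ => X) 1 →L[ℝ] W} (h : ∀ k x, A (sgl X k x) = B (sgl X k x)) : A = B :=
  lp1_hom_ext h

/-- `Y × ℓ¹(X) ≃ ℓ¹(X)` when `Y` is (isomorphic to) a complemented subspace of `X`. -/
noncomputable def absorb (S : Y →L[ℝ] X) (Q : X →L[ℝ] Y) (hQS : ∀ y, Q (S y) = y) :
    (Y × lp (fun _ : ℕ => X) 1) ≃L[ℝ] lp (fun _ : ℕ => X) 1 :=
  ContinuousLinearEquiv.equivOfInverse
    (((sgl X 0).comp S).coprod ((rsh X).comp (cw (S.comp Q)) +
      (ContinuousLinearMap.id ℝ _ - cw (S.comp Q))))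
    ((Q.comp (ev0 X)).prod ((lsh X).comp (cw (S.comp Q)) +
      (ContinuousLinearMap.id ℝ _ - cw (S.comp Q))))
    (by
      have h1 : ∀ y : Y, ((Q.comp (ev0 X)).prod ((lsh X).comp (cw (S.comp Q)) +
          (ContinuousLinearMap.id ℝ _ - cw (S.comp Q)))) (sgl X 0 (S y)) = (y, 0) := by
        intro y
        ext1
        · simp [ev0_sgl, hQS]
        · simp [cw_sgl, lsh_sgl, hQS]
      have h2 : ((Q.comp (ev0 X)).prod ((lsh X).comp (cw (S.comp Q)) +
          (ContinuousLinearMap.id ℝ _ - cw (S.comp Q)))).comp ((rsh X).comp (cw (S.comp Q)) +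
          (ContinuousLinearMap.id ℝ _ - cw (S.comp Q))) = ContinuousLinearMap.inr ℝ _ _ := by
        refine sgl_ext fun k x => ?_
        ext1
        · rcases k with _ | k <;> simp [cw_sgl, rsh_sgl, ev0_sgl, hQS]
        · rcases k with _ | k <;> simp [cw_sgl, rsh_sgl, lsh_sgl, hQS]
      intro p
      have h3 := DFunLike.congr_fun h2 p.2
      have h4 := h1 p.1
      rw [ContinuousLinearMap.coprod_apply, map_add, ContinuousLinearMap.comp_apply, h4]
      rw [ContinuousLinearMap.comp_apply] at h3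
      rw [h3]
      simp)
    (by
      have h2 : (((sgl X 0).comp S).coprod ((rsh X).comp (cw (S.comp Q)) +
          (ContinuousLinearMap.id ℝ _ - cw (S.comp Q)))).comp
          ((Q.comp (ev0 X)).prod ((lsh X).comp (cw (S.comp Q)) +
          (ContinuousLinearMap.id ℝ _ - cw (S.comp Q)))) = ContinuousLinearMap.id ℝ _ := by
        refine sgl_ext fun k x => ?_
        rcases k with _ | k <;> simp [cw_sgl, rsh_sgl, lsh_sgl, ev0_sgl, hQS]
      intro z
      exact DFunLike.congr_fun h2 z)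

/-- `Y × X ≃ Y` when `X × X ≃ X` and `X` is (isomorphic to) a complemented subspace of `Y`. -/
noncomputable def absorb' (θ : (X × X) ≃L[ℝ] X) (T : X →L[ℝ] Y) (G : Y →L[ℝ] X)
    (hGT : ∀ x, G (T x) = x) : (Y × X) ≃L[ℝ] Y :=
  ContinuousLinearEquiv.equivOfInverse
    (T.comp ((θ : (X × X) →L[ℝ] X).comp ((G.comp (ContinuousLinearMap.fst ℝ Y X)).prod
      (ContinuousLinearMap.snd ℝ Y X))) +
      ((ContinuousLinearMap.id ℝ Y - T.comp G).comp (ContinuousLinearMap.fst ℝ Y X)))
    (((T.comp ((ContinuousLinearMap.fst ℝ X X).comp ((θ.symm : X →L[ℝ] (X × X)).comp G))) +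
      (ContinuousLinearMap.id ℝ Y - T.comp G)).prod
      ((ContinuousLinearMap.snd ℝ X X).comp ((θ.symm : X →L[ℝ] (X × X)).comp G)))
    (by
      rintro ⟨y, x⟩
      ext1 <;> simp [hGT])
    (by
      intro y
      have : θ ((θ.symm (G y)).1, (θ.symm (G y)).2) = G y := by simp
      simp [hGT])

/-- Pełczyński's decomposition method. -/
theorem pelczynski
    (hX : Nonempty (X ≃L[ℝ] lp (fun _ : ℕ => X) 1))
    (S : Y →L[ℝ] X) (Q : X →L[ℝ] Y) (hQS : ∀ y, Q (S y) = y)
    (T : X →L[ℝ] Y) (G : Y →L[ℝ] X) (hGT : ∀ x, G (T x) = x) :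
    Nonempty (X ≃L[ℝ] Y) := by
  obtain ⟨e⟩ := hX
  let θ : (X × X) ≃L[ℝ] X :=
    ((ContinuousLinearEquiv.refl ℝ X).prodCongr e).trans
      ((absorb (ContinuousLinearMap.id ℝ X) (ContinuousLinearMap.id ℝ X) fun _ => rfl).trans
        e.symm)
  let a : (Y × X) ≃L[ℝ] X := ((ContinuousLinearEquiv.refl ℝ Y).prodCongr e).trans
      ((absorb S Q hQS).trans e.symm)
  exact ⟨a.symm.trans (absorb' θ T G hGT)⟩

end Pelc

end Vale.Agent.P124.R2
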