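import Mathlib
import Vale.Agent.P124.R2.H124.Main
import Vale.Agent.P124.R2.H124.Pelc

open scoped NNReal ENNReal

namespace Vale.Agent.P124.R2

/-- Lipschitz isomorphisms of an `ℓ¹`-sum of finite-dimensional spaces with local distortion
less than `2` somewhere. -/
theorem iso_key (E : ℕ → Type*) [∀ i, NormedAddCommGroup (E i)] [∀ i, NormedSpace ℝ (E i)]
    [∀ i, FiniteDimensional ℝ (E i)] (Y : Type*) [NormedAddCommGroup Y] [NormedSpace ℝ Y]
    [CompleteSpace Y] (f : lp E 1 ≃ Y) (K' L' K L : ℝ≥0) (O : Set (lp E 1))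
    (hf : LipschitzWith L' f) (hg : LipschitzWith K' f.symm) (hO : IsOpen O) (hne : O.Nonempty)
    (hfO : LipschitzOnWith L f O) (hgO : LipschitzOnWith K f.symm (f '' O)) (hKL : K * L < 2) :
    (∃ (S : Y →L[ℝ] lp E 1) (Q : lp E 1 →L[ℝ] Y), ∀ y, Q (S y) = y) ∧
    (∃ (T : lp E 1 →L[ℝ] Y) (G : Y →L[ℝ] lp E 1), ∀ x, G (T x) = x) ∧
    (Nonempty (lp E 1 ≃L[ℝ] lp (fun _ : ℕ => lp E 1) 1) → Nonempty (lp E 1 ≃L[ℝ] Y)) := by
  have hO' : IsOpen (f '' O) := by
    rw [Equiv.image_eq_preimage_symm]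
    exact hO.preimage hg.continuous
  have hmaps : Set.MapsTo f.symm (f '' O) O := by
    rintro _ ⟨x, hx, rfl⟩
    simpa using hx
  obtain ⟨S, Q, hQS⟩ := complemented_of_factor f.symm f K' L' K L hg hf (fun y => by simp)
    O hO (f '' O) hO' (hne.image f) hmaps hgO hfO hKL
  obtain ⟨T, G, hGT⟩ := source_complemented f f.symm K' L' hg hf (fun x => by simp)
    (fun y => by simp)
  have : ∀ i, CompleteSpace (E i) := fun i => FiniteDimensional.complete ℝ (E i)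
  exact ⟨⟨S, Q, hQS⟩, ⟨T, G, hGT⟩, fun h => pelczynski h S Q hQS T G hGT⟩

end Vale.Agent.P124.R2
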